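import Crest.Agent.X212.Twn5.Defs

/-!
# Row 212, twins (helper55): twin families and the split of `Rf65.TwStmt`
-/

set_option autoImplicit false
set_option linter.unusedSectionVars false
noncomputable section
open scoped Manifold ContDiff Topology InnerProductSpace
open MeasureTheory Set Function Filter

namespace Crest.Agent.X212.Tw55
open An M G75 Ins26 Jb7 Rf65
open Nat75 (pl tr ce0)
open Twn5 (OP)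
open Line51 (rl)
open Eqv71 (KT PRel0 PcRel0 TmR)
open Cnt93 (TcR)
open Br55 (NC CN)

variable {κ lam : Type} [Fintype κ] [Fintype lam] [DecidableEq lam] {Lm : LM κ lam}
  {S S' : Scene Lm}

/-- the outside of the wall `R` -/
abbrev Ox (S : Scene Lm) (R : S.A) : Set S.X.M := (S.M.sys.w R).sd true

/-! ### on `Z c` -/

section z
variable {D : S.Dat} {D' : S'.Dat} {i : S.L} {i' : S'.L} {Wi Wi' : Type} {r n : ℕ}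

/-- the outside of `R` in `Z c` -/
abbrev Oz (D : S.Dat) (c : S.M.Cl) (R : S.A) : Set (D.W.Z c).M := D.W.un c (OP R c)

variable (J : Job Wi (D.Λ i) (S.A ⊕ Unit) S.ls r n) (J' : Job Wi' (D'.Λ i') (S'.A ⊕ Unit) S'.ls r n)
  {A₀ : Type} (I : MId S.M S'.M A₀) (R₀ : A₀) (u : Wi ↪ Wi') (c : S.M.Cl) (c' : S'.M.Cl)
  (s : S.A ⊕ Unit → ℝ) (φ : (D.W.Z c).M → (D'.W.Z c').M) (ψ : (D'.W.Z c').M → (D.W.Z c).M)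
  (U : (D.W.Z c).M → Option κ → Option κ → ℝ)
  (v : (D.W.Z c).M → CL (Eu (lam ⊕ lam)) (Eu (lam ⊕ lam)))

/-- the outsides are identified, literally on the ends -/
structure GZ : Prop where
  kt : KT (J.B c) (J.G c s) (J'.B c') (J'.G c' (tr I.f I.f' s)) (Oz D c (I.f R₀))
    (Oz D' c' (I.f' R₀)) φ ψ U v
  pc : ∀ ρ ∈ OP (I.f R₀) c, φ '' D.W.pc c ρ = D'.W.pc c' (pl I.f' I.f ρ)
  cy : ∀ a, Cy.Iso ((S.N i).cy (I.f a)) ((S'.N i').cy (I.f' a)) (I.g a)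
  nk : ∀ a, I.f a ∈ cylW c → ∀ y t, t ≠ 0 → |t| < 1 → (a = R₀ → 0 < t) →
    φ (D.W.nj c (I.f a) (y, t)) = D'.W.nj c' (I.f' a) (I.g a y, t) ∧
    (∀ k l, U (D.W.nj c (I.f a) (y, t)) k l = (J.B c).P k l (D.W.nj c (I.f a) (y, t))) ∧
    v (D.W.nj c (I.f a) (y, t)) = (J.B c).l (D.W.nj c (I.f a) (y, t))

/-- the terms and the cuts correspond outside -/
structure TZ : Prop where
  τ : ∀ q, PRel0 (J.B c) (J.G c s) (J'.B c') (J'.G c' (tr I.f I.f' s)) (Oz D c (I.f R₀))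
    (Oz D' c' (I.f' R₀)) φ U v (J.τ c (rs u q) s) (J'.τ c' q (tr I.f I.f' s))
  ct : ∀ a h h', (J.cut c ⟨I.f a, h⟩).Rel (J'.cut c' ⟨I.f' a, h'⟩) (Oz D c (I.f R₀)) φ v ∧
    ∀ q, PcRel0 (J.B c) (J.G c s) (J'.B c') (J'.G c' (tr I.f I.f' s)) (Oz D c (I.f R₀))
      (Oz D' c' (I.f' R₀)) φ U v (J.σc c (rs u q) s ⟨I.f a, h⟩)
      (J'.σc c' q (tr I.f I.f' s) ⟨I.f' a, h'⟩)

/-- **TW-GEO** -/
def GeoI : Prop := ∀ (c : S.M.Cl) (c' : S'.M.Cl), I.f R₀ ∈ c.1 → c'.1 = I.f' '' (I.f ⁻¹' c.1) →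
  ∀ σ ∈ J.𝒦, ∀ s ∈ Job.cl σ, Sys.inf (J.Θ s).2 = c.1 → ∃ φ ψ U v, GZ J J' I R₀ c c' s φ ψ U v ∧
    (c.1 = {I.f R₀} → (∃ τ : Finset A₀, σ = ce0 (τ.map I.f)) → TZ J J' I R₀ u c c' s φ U v)

/-- **TW-INS**: a module with a connection inside `R` -/
def InsI (R : S.A) : Prop := ∀ c : S.M.Cl, R ∈ c.1 →
  (∀ a ∈ c.1, a ≠ R → (S.M.sys.w a).band ⊆ Ox S R) → ∀ σ ∈ J.𝒦, ∀ s ∈ Job.cl σ,
  Sys.inf (J.Θ s).2 = c.1 → ∃ x : Cfg (D.W.Z c).M (Option κ) (lam ⊕ lam) 0,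
    Tmp64.AdmOn x (J.B c) (J.G c s) (Oz D c R)ᶜ

/-- **TW-OC** -/
def OcI (τ : Finset A₀) (k : ℝ) : Prop := ∀ q,
  oc J (J.cf (.inl (I.f R₀))) (shX S {I.f R₀}) (ce0 (τ.map I.f)) (rs u q) (I.f R₀) k =
    oc J' (J'.cf (.inl (I.f' R₀))) (shX S' {I.f' R₀}) (ce0 (τ.map I.f')) q (I.f' R₀) k

end z

/-! ### families -/

section fam
variable {V : Set S.X.M} (m : Mt S S' V)

/-- the matched walls outside -/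
abbrev Ao : Type := {a : m.A₀ // (S.M.sys.w (m.I.f a)).band ⊆ V}

instance : Fintype (Ao m) := Fintype.ofFinite _

/-- the identification of the outer walls -/
abbrev Io : MId S.M S'.M (Ao m) := m.I.re (.subtype _)

variable (R₀ : Ao m) (i : m.L₀) (e : Bool → S.A) (d : ℕ) {j N : ℕ} (F : Fam S j N) (F' : Fam S' j N)
  (u : F.Wi ↪ F'.Wi) (T : ℝ)

/-- the scenes -/
structure Tw1 : Prop where
  hV : V = hf S.M ((Io m).f R₀) true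
  img : m.I.ψ '' V = hf S'.M ((Io m).f' R₀) true
  fz : ∀ a ∈ S'.fz, ∃ a₀, m.I.f' a₀ = a ∧ m.I.f a₀ ∈ S.fz
  ok : S.OK
  ok' : S'.OK
  rwi : RWI S (m.ι i) ((Io m).f R₀) {e false, e true} 1 (1 + (lsI S ((Io m).f R₀)).card)
  rs : RS S (m.ι i) ((Io m).f R₀) (e false) (e true)
  ds : DS S' (m.ι' i) ((Io m).f' R₀)
  rn : RN S (m.ι i) S' (m.ι' i)

/-- the terms at the parameter `s` -/
structure Tt (s : S.A ⊕ Unit → ℝ) : Prop where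
  co : ∀ w, let a := (F.t (m.ι i)).co w s
    let a' := (F'.t (m.ι' i)).co (u w) (tr (Io m).f (Io m).f' s)
    a' = a ∧ (a ≠ 0 → TmR (Ox S ((Io m).f R₀)) m.I.ψ (fun x => rl (m.w i x)) ((F.t (m.ι i)).tw w)
      ((F'.t (m.ι' i)).tw (u w))) ∨
    (a = 0 ∨ ((F.t (m.ι i)).tw w).Van (Ox S ((Io m).f R₀))) ∧
      (a' = 0 ∨ ((F'.t (m.ι' i)).tw (u w)).Van (Ox S' ((Io m).f' R₀)))
  cc : ∀ a h h' w, let b := (F.t (m.ι i)).cc ⟨(Io m).f a, h⟩ w s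
    (F'.t (m.ι' i)).cc ⟨(Io m).f' a, h'⟩ (u w) (tr (Io m).f (Io m).f' s) = b ∧
    (b ≠ 0 → TcR (Ox S ((Io m).f R₀)) m.I.ψ (fun x => rl (m.w i x))
      ((F.t (m.ι i)).tc ⟨(Io m).f a, h⟩ w) ((F'.t (m.ι' i)).tc ⟨(Io m).f' a, h'⟩ (u w)))
  off : ∀ w ∉ range u, (F'.t (m.ι' i)).co w (tr (Io m).f (Io m).f' s) = 0 ∧
    ∀ l, (F'.t (m.ι' i)).cc l w (tr (Io m).f (Io m).f' s) = 0

/-- **twin families** at the line `i` -/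
structure Tw0 : Prop extends Tw1 m R₀ i e where
  hF : F.OK T
  hF' : F'.OK T
  X : F.X = {(Io m).f R₀}
  X' : F'.X = {(Io m).f' R₀}
  n₀ : F.n₀ = -(d + 1 : ℕ)
  n₀' : F'.n₀ = -d
  cell : ∀ σ₁ ∈ F.𝒦 (m.ι i), ∃ (σ : Finset (Ao m)) (b : Bool), R₀ ∈ σ ∧
    ∃ τ ⊆ insert (e b) (σ.map (Io m).f), σ₁ = ce0 τ ∧ ce0 (insert (e b) (σ.map (Io m).f)) ∈ F.𝒦 (m.ι i) ∧
      ce0 (σ.map (Io m).f') ∈ F'.𝒦 (m.ι' i)
  ne : (F.𝒦 (m.ι i)).Nonempty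
  Tf : ∀ a, (Io m).f a ∈ S.fz → F'.Tf ((Io m).f' a) 0 = F.Tf ((Io m).f a) 0
  met : WId F.D.W F'.D.W (Io m) (Ox S ((Io m).f R₀)) (F.uf 0) (F'.uf 0)
  con : M.CId (F.D.Λ (m.ι i)) (F'.D.Λ (m.ι' i)) (Io m) (Ox S ((Io m).f R₀)) (m.w i) (F.uf 0) (F'.uf 0)
  tm : ∀ τ : Finset (Ao m), ce0 (τ.map (Io m).f) ∈ F.𝒦 (m.ι i) →
    ∀ s ∈ Job.cl (ce0 (τ.map (Io m).f)), s (.inl ((Io m).f R₀)) = 1 → Tt m R₀ i F F' u s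

end fam

variable (Lm)

/-- a property of all twin families -/
def AllT (P : ∀ {S S' : Scene Lm} {V} (m : Mt S S' V) (_ : Ao m) (_ : m.L₀) (_ : Bool → S.A) {j N}
    (F : Fam S j N) (F' : Fam S' j N) (_ : F.Wi ↪ F'.Wi), Prop) : Prop :=
  ∀ (S S' : Scene Lm) V (m : Mt S S' V) R₀ i e d j N (F : Fam S j N) (F' : Fam S' j N) u T,
    Tw0 m R₀ i e d F F' u T → P m R₀ i e F F' u

/-- **TW-GEO** (helper55) -/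
def GeoStmt : Prop := AllT Lm fun m R₀ i _ _ _ F F' u =>
  GeoI (F.job (m.ι i)) (F'.job (m.ι' i)) (Io m) R₀ u

/-- **TW-INS** -/
def InsStmt : Prop := ∀ (S : Scene Lm) (D : S.Dat) i Wi r n
  (J : Job Wi (D.Λ i) (S.A ⊕ Unit) S.ls r n) R w, J.OK → ¬S.M.pin R →
  Ref S.X.I (S.N i).p ((S.M.sys.w R).sd false) w → InsI J R

/-- **TW-REG** -/
def RegStmt : Prop := AllT Lm fun {S} _ _ m R₀ i e _ _ F F' _ =>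
  Twn5.RegI (F.job (m.ι i)) (F'.job (m.ι' i)) (Io m).f (Io m).f' R₀ {e false, e true}
    (1 + (lsI S ((Io m).f R₀)).card) ∧
  (F'.job (m.ι' i)).k = (F.job (m.ι i)).k - (1 + (lsI S ((Io m).f R₀)).card : ℕ) / 4

/-- **TW-OBJ** -/
def ObjStmt : Prop := AllT Lm fun {S} _ _ m R₀ i e _ _ F F' u =>
  GeoI (F.job (m.ι i)) (F'.job (m.ι' i)) (Io m) R₀ u → InsI (F'.job (m.ι' i)) ((Io m).f' R₀) →
  Twn5.ObjI (F.job (m.ι i)) (F'.job (m.ι' i)) (Io m).f (Io m).f' R₀ {e false, e true}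
    (1 + (lsI S ((Io m).f R₀)).card)

/-- **TW-OC** -/
def OcStmt : Prop := AllT Lm fun m R₀ i _ _ _ F F' u =>
  GeoI (F.job (m.ι i)) (F'.job (m.ι' i)) (Io m) R₀ u → InsI (F.job (m.ι i)) ((Io m).f R₀) →
  InsI (F'.job (m.ι' i)) ((Io m).f' R₀) → ∀ τ k, R₀ ∈ τ → ce0 (τ.map (Io m).f) ∈ F.𝒦 (m.ι i) →
    ce0 (τ.map (Io m).f') ∈ F'.𝒦 (m.ι' i) → OcI (F.job (m.ι i)) (F'.job (m.ι' i)) (Io m) R₀ u τ k

/-- **TW-FAM** -/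
def FamStmt : Prop := ∀ (S S' : Scene Lm) V (m : Mt S S' V) (R₀ : Ao m) (e : Bool → S.A) j N d
  (C : m.L₀ → Set (Finset (Ao m))) (P : S'.Dat → Prop), (∃ i, (C i).Nonempty) →
  (∀ i, ∀ σ ∈ C i, Tw1 m R₀ i e ∧ R₀ ∈ σ ∧ σ.card ≤ d + 1 ∧
    (∀ a ∈ σ, a = R₀ ∨ S.M.pin ((Io m).f a) ∨ (Io m).f a ∈ S.ls ∧ (Io m).f' a ∈ S'.ls) ∧
    (∀ b, insert (e b) (σ.map (Io m).f) ∈ S.K (m.ι i) ∧ NC S (m.ι i) (insert (e b) (σ.map (Io m).f))) ∧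
    σ.map (Io m).f' ∈ S'.K (m.ι' i) ∧ NC S' (m.ι' i) (σ.map (Io m).f')) →
  Rea ((Io m).f' R₀) P → ∀ T < (1 : ℝ),
  ∃ (F : Fam S j N) (F' : Fam S' j N) (u : F.Wi ↪ F'.Wi), F.OK T ∧ F'.OK T ∧ P F'.D ∧
    (∀ i, Sep (F.job i)) ∧ (∀ i, Sep (F'.job i)) ∧
    (∀ i₁, ∀ σ₁ ∈ F.𝒦 i₁, ∃ i, ∃ σ ∈ C i, ∃ b, ∃ τ ⊆ insert (e b) (σ.map (Io m).f),
      i₁ = m.ι i ∧ σ₁ = ce0 τ) ∧
    (∀ i₁, ∀ σ₁ ∈ F'.𝒦 i₁, ∃ i, ∃ σ ∈ C i, ∃ τ ⊆ σ.map (Io m).f', i₁ = m.ι' i ∧ σ₁ = ce0 τ) ∧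
    ∀ i, ∀ σ ∈ C i, (∀ b, ce0 (insert (e b) (σ.map (Io m).f)) ∈ F.𝒦 (m.ι i)) ∧
      ce0 (σ.map (Io m).f') ∈ F'.𝒦 (m.ι' i) ∧ Tw0 m R₀ i e d F F' u T

end Crest.Agent.X212.Tw55
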