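import Crest.Agent.X212.Tw55.Defs
import Crest.Agent.X212.Hp13.TwA

/-!
# Row 212, twins (helper55): walls and parameters of twin families
-/

set_option autoImplicit false
set_option linter.unusedSectionVars false
noncomputable section
open scoped Manifold ContDiff Topology
open Set Function Filter

namespace Crest.Agent.X212.Tw55
open An M G75 Ins26 Jb7 Rf65
open Nat75 (pl tr ce0 mem_sp tr_f tr_out th_fz th_out th_in)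
open Twn5 (OP)
open Hp13.Tw (LC CC)
open Line51 (rl)

variable {κ lam : Type} [Fintype κ] [Fintype lam] [DecidableEq lam] {Lm : LM κ lam}
  {S S' : Scene Lm} {V : Set S.X.M} {m : Mt S S' V} {R₀ : Ao m} {i : m.L₀} {e : Bool → S.A}

theorem mem_op {R : S.A} {c : S.M.Cl} (hR : R ∈ c.1) {x : S.X.M} :
    x ∈ ⋃ ρ ∈ OP R c, S.M.sys.U ρ ↔ x ∈ Ox S R ∧ x ∉ S.M.sys.cores c.1 := by
  have := S.M.con
  refine ⟨fun h => let ⟨_, k, e⟩ := mem_iUnion₂.1 h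
    ⟨k.2 e, (Sys.Piece.disjoint_cores c.2 k.1).subset_compl_right e⟩, fun h => ?_⟩
  obtain ⟨π, k, e⟩ := Sys.exists_piece c.2 h.2
  obtain ⟨b, hb⟩ := k.side c.2 hR
  obtain rfl := (S.M.sys.w R).sd_inj (hb e) h.1
  exact mem_biUnion (show π ∈ OP R c from ⟨k, hb⟩) e

namespace Tw1
variable (H : Tw1 m R₀ i e)
include H

theorem sub : Ox S ((Io m).f R₀) ⊆ V := subset_union_left.trans H.hV.ge

theorem lid : LId (S.N (m.ι i)) (S'.N (m.ι' i)) (Io m) (Ox S ((Io m).f R₀)) (m.w i) :=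
  have h := (m.lid i).mono ((S.M.sys.w _).op_sd true) H.sub
  ⟨h.op, h.sub, h.uni, fun a => h.LY a.1, fun a => h.m a.1⟩

theorem lc : LC S.M.sys S'.M.sys (Io m).f (Io m).f' m.I.ψ.toPartialEquiv R₀ :=
  ⟨(Io m).sub, (Io m).symm.sub, (Io m).sd, fun a _ k => Met55.mem_band (Io m) a k, H.lid.sub,
    fun _ k => let ⟨_, a, b⟩ := H.img.ge (.inl k); b ▸ m.I.ψ.map_source ((m.lid i).sub a)⟩

theorem np : ¬S.M.pin ((Io m).f R₀) := let ⟨_, _, h⟩ := H.rwi.rw; h.np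

theorem e_in (b : Bool) : (S.M.sys.w (e b)).band ⊆ (S.M.sys.w ((Io m).f R₀)).sd false :=
  subset_union_right.trans (H.rwi.pin (e b) (by cases b <;> simp)).2.2

theorem e_out (b : Bool) : e b ∉ range (Io m).f := fun ⟨a, k⟩ => by
  obtain ⟨x, hx⟩ := Hp13.Tw.band_ne (S := S.M.sys) (e b)
  refine (H.hV.le (a.2 (show x ∈ (S.M.sys.w ((Io m).f a)).band from k ▸ hx))).elim
    (Wall.not_mem_sd _ (H.e_in b hx)) fun h => ?_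
  exact disjoint_left.1 (H.rwi.pin (e b) (by cases b <;> simp)).2.1 h hx

theorem fz_l {a : S.A} (h : a ∈ S.fz) : ∃ a₀, (Io m).f a₀ = a ∧ (Io m).f' a₀ ∈ S'.fz := by
  obtain ⟨a, rfl, k⟩ := m.fz a h
  obtain ⟨_, _, r⟩ := H.rwi.rw
  exact ⟨⟨a, (r.fz _ h).trans H.sub⟩, rfl, k⟩

theorem fz_r {a : S'.A} (h : a ∈ S'.fz) : ∃ a₀, (Io m).f' a₀ = a ∧ (Io m).f a₀ ∈ S.fz := by
  obtain ⟨a, rfl, k⟩ := H.fz a h
  obtain ⟨_, _, r⟩ := H.rwi.rw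
  exact ⟨⟨a, (r.fz _ k).trans H.sub⟩, rfl, k⟩

theorem fz_iff (a : Ao m) : (Io m).f' a ∈ S'.fz ↔ (Io m).f a ∈ S.fz :=
  ⟨fun h => let ⟨_, x, y⟩ := H.fz_r h; (Io m).f'.injective x ▸ y,
    fun h => let ⟨_, x, y⟩ := H.fz_l h; (Io m).f.injective x ▸ y⟩

omit H in
theorem mem_ls {a : Ao m} (h : (Io m).f' a ∈ S'.ls) : a.1 ∈ m.ls :=
  (Finset.mem_map' m.I.f').1 (m.ls' ▸ h)

theorem hf_out {a : Ao m} (h : (Io m).f a ∈ S.ls) :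
    hf S.M ((Io m).f a) false ⊆ Ox S ((Io m).f R₀) := by
  have := S.M.con
  obtain ⟨_, _, r⟩ := H.rwi.rw
  exact Hp13.Tw.ins_sub (r.cmp _ h) (Hp13.Tw.sd_of_out (r.cmp _ h) (a.2.trans H.hV.le))
    (H.ok.lsi _ h _ (fun k => r.nl (k ▸ h)) (r.cmp _ h))

theorem ls_iff (a : Ao m) : (Io m).f' a ∈ S'.ls ↔ (Io m).f a ∈ S.ls :=
  ⟨fun h => m.lsub (Finset.mem_map_of_mem _ (mem_ls h)), fun h => m.ls' ▸ Finset.mem_map_of_mem _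
    ((Finset.mem_map' m.I.f).1 ((m.lin _ h).2 ((H.hf_out h).trans H.sub)))⟩

theorem ls_r {l : S'.A} (h : l ∈ S'.ls) : ∃ a, (Io m).f' a = l ∧ (Io m).f a ∈ S.ls := by
  obtain ⟨a, k, rfl⟩ := Finset.mem_map.1 (m.ls' ▸ h)
  exact ⟨⟨a, subset_union_right.trans (m.hf_sub k)⟩, rfl, m.lsub (Finset.mem_map_of_mem _ k)⟩

theorem ls_l (l : S.ls) (h : S.nb l ⊆ Ox S ((Io m).f R₀)) : ↑l ∈ range (Io m).f := by
  obtain ⟨_, _, r⟩ := H.rwi.rw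
  obtain ⟨x, hx⟩ := (S.M.sys.w l).ne false
  have k := Wall.band_subset (r.cmp _ l.2) hx.1 (h hx.2)
  obtain ⟨a, -, k'⟩ := Finset.mem_map.1 ((m.lin _ l.2).2 ((union_subset h k).trans H.sub))
  exact ⟨⟨a, k' ▸ k.trans H.sub⟩, k'⟩

theorem ct (hc : CutOK Lm) {a : Ao m} (h h') : (S.ct (m.ι i) ⟨(Io m).f a, h⟩).Rel
    (S'.ct (m.ι' i) ⟨(Io m).f' a, h'⟩) (Ox S ((Io m).f R₀)) m.I.ψ fun x => rl (m.w i x) :=
  m.ct_tp H.ok H.ok' (mem_ls h') h h' hc i ▸ (Tp.rel_of _ H.lid.sub).cut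
    ((H.ok.nb_ok ⟨_, h⟩ hc _).2.1.sub.trans (subset_union_left.trans (H.hf_out h)))

/-- matched faces -/
theorem cc {c : S.M.Cl} {c' : S'.M.Cl} (hR : (Io m).f R₀ ∈ c.1)
    (h : ∀ a ∈ c.1, a ∈ range (Io m).f ∨ ∃ b, a = e b) (h' : c'.1 = (Io m).f' '' ((Io m).f ⁻¹' c.1)) :
    CC S.M.sys S'.M.sys (Io m).f (Io m).f' m.I.ψ.toPartialEquiv R₀ c.1 c'.1 := by
  refine ⟨H.lc, ⟨fun a k o => ?_, fun a k _ => ?_⟩, (insert_eq_of_mem hR).symm ▸ c.2,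
    (insert_eq_of_mem (h'.ge ⟨R₀, hR, rfl⟩)).symm ▸ c'.2⟩
  · obtain ⟨a, rfl⟩ | ⟨b, rfl⟩ := h a k
    · exact ⟨a, rfl, h'.ge ⟨a, k, rfl⟩⟩
    · obtain ⟨x, hx⟩ := Hp13.Tw.band_ne (S := S.M.sys) (e b)
      exact (Wall.not_mem_sd _ (H.e_in b hx) (Hp13.Tw.sd_of_out
        (H.rwi.pin (e b) (by cases b <;> simp)).2.1 o hx)).elim
  · obtain ⟨a, k', rfl⟩ := h'.le k
    exact ⟨a, rfl, k'⟩

end Tw1

variable {d j N : ℕ} {F : Fam S j N} {F' : Fam S' j N} {u : F.Wi ↪ F'.Wi} {T : ℝ}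

variable (m i e F F') in
/-- the parameter `s` lies in matched cells -/
structure Pm (σ : Finset (Ao m)) (b : Bool) (s : S.A ⊕ Unit → ℝ) : Prop where
  l : ce0 (insert (e b) (σ.map (Io m).f)) ∈ F.𝒦 (m.ι i)
  r : ce0 (σ.map (Io m).f') ∈ F'.𝒦 (m.ι' i)
  s : s ∈ Job.cl (ce0 (insert (e b) (σ.map (Io m).f)))

namespace Tw0
variable (H : Tw0 m R₀ i e d F F' u T)
include H

theorem pm {σ₁} (h : σ₁ ∈ F.𝒦 (m.ι i)) {s} (hs : s ∈ Job.cl σ₁) : ∃ σ b, R₀ ∈ σ ∧ Pm m i e F F' σ b s := by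
  obtain ⟨σ, b, r, τ, t1, rfl, t2, t3⟩ := H.cell σ₁ h
  exact ⟨σ, b, r, t2, t3, mem_sp.2 ⟨fun a k => (mem_sp.1 hs.1).1 a fun k' => k (t1 k'),
    (mem_sp.1 hs.1).2⟩, hs.2⟩

variable {σ : Finset (Ao m)} {b : Bool} {s : S.A ⊕ Unit → ℝ} (P : Pm m i e F F' σ b s)
include P

theorem cl' : tr (Io m).f (Io m).f' s ∈ Job.cl (ce0 (σ.map (Io m).f')) := by
  refine ⟨mem_sp.2 ⟨fun a ha => ?_, (mem_sp.1 P.s.1).2⟩,
    Nat75.tr_all (P := (· ∈ Icc (0 : ℝ) 1)) ⟨le_rfl, zero_le_one⟩ P.s.2⟩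
  by_cases k : ∃ x, (Io m).f' x = a
  · obtain ⟨x, rfl⟩ := k
    refine (tr_f x).trans ((mem_sp.1 P.s.1).1 _ fun k => ?_)
    exact (Finset.mem_insert.1 k).elim (fun k => H.e_out b ⟨x, k⟩) fun k =>
      ha (Finset.mem_map_of_mem _ ((Finset.mem_map' _).1 k))
  · exact tr_out k

theorem act {a : S.A} (h : ((F.job (m.ι i)).Θ s).2 a ≠ 0) : a ∈ range (Io m).f ∨ a = e b := by
  by_cases k : a ∈ S.fz
  · exact .inl (let ⟨x, y, _⟩ := H.fz_l k; ⟨x, y⟩)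
  · exact (Finset.mem_insert.1 (by_contra fun k' => h (th_out P.s.1 k k'))).symm.imp_left fun k =>
      let ⟨x, _, y⟩ := Finset.mem_map.1 k; ⟨x, y⟩

theorem act' {a : S'.A} (h : ((F'.job (m.ι' i)).Θ (tr (Io m).f (Io m).f' s)).2 a ≠ 0) :
    a ∈ range (Io m).f' := by
  by_cases k : a ∈ S'.fz
  · exact let ⟨x, y, _⟩ := H.fz_r k; ⟨x, y⟩
  · exact let ⟨x, _, y⟩ := Finset.mem_map.1 (by_contra fun k' => h (th_out (H.cl' P).1 k k')); ⟨x, y⟩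

theorem th_eq (a : Ao m) : ((F'.job (m.ι' i)).Θ (tr (Io m).f (Io m).f' s)).2 ((Io m).f' a) =
    ((F.job (m.ι i)).Θ s).2 ((Io m).f a) := by
  by_cases k : (Io m).f a ∈ S.fz
  · rw [th_fz P.s.1 k, th_fz (H.cl' P).1 ((H.fz_iff a).2 k), H.Tf a k]
  by_cases l : a ∈ σ
  · rw [th_in H.hF H.ok P.l (Finset.mem_insert_of_mem (Finset.mem_map_of_mem _ l)),
      th_in H.hF' H.ok' P.r (Finset.mem_map_of_mem _ l), tr_f]
  · rw [th_out P.s.1 k fun n => (Finset.mem_insert.1 n).elim (fun n => H.e_out b ⟨a, n⟩)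
      fun n => l ((Finset.mem_map' _).1 n),
      th_out (H.cl' P).1 (mt (H.fz_iff a).1 k) fun n => l ((Finset.mem_map' _).1 n)]

theorem rel : (Io m).Rel (Ox S ((Io m).f R₀)) ((F.job (m.ι i)).Θ s).2
    ((F'.job (m.ι' i)).Θ (tr (Io m).f (Io m).f' s)).2 :=
  ⟨(H.hF.ok _ ⟨_, P.l⟩).par _ P.l _ (Job.cl_dom _ P.s),
    (H.hF'.ok _ ⟨_, P.r⟩).par _ P.r _ (Job.cl_dom _ (H.cl' P)), H.th_eq P,
    fun _ k h => disjoint_left.2 fun _ x y =>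
      Wall.not_mem_sd _ (H.e_in b ((H.act P h).resolve_left k ▸ x)) y,
    fun _ k h => (k (H.act' P h)).elim⟩

theorem inf' : Sys.inf ((F'.job (m.ι' i)).Θ (tr (Io m).f (Io m).f' s)).2 =
    (Io m).f' '' ((Io m).f ⁻¹' Sys.inf ((F.job (m.ι i)).Θ s).2) := by
  refine Set.ext fun a => ⟨fun k => ?_, ?_⟩
  · obtain ⟨a, rfl⟩ := H.act' P (Sys.inf_subset _ k)
    exact ⟨a, (H.th_eq P a).symm.trans k, rfl⟩
  · rintro ⟨a, k, rfl⟩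
    exact (H.th_eq P a).trans k

end Tw0

end Crest.Agent.X212.Tw55
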