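import Crest.Agent.X212.Tw55.Pc
import Crest.Agent.X212.Tw55.Bas
import Crest.Agent.X212.Twn5.Ol
import Crest.Agent.X212.Fex7.Iso

/-!
# Row 212, twins (helper55): **TW-OBJ**, transport of objects
-/

set_option autoImplicit false
set_option linter.unusedSectionVars false
noncomputable section
open scoped Manifold ContDiff Topology InnerProductSpace
open MeasureTheory Set Function Filter

namespace Crest.Agent.X212.Tw55
open An M Cyf70 Nd18 Pj41 Tmp64 Bki64 Eqv71 Neck67 Rdc90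
open Rf65 (dz dh)
open Twn5 (YJ NJ cl_pl yj_of OP)

section ends
variable {κ lam : Type} [Fintype κ] [Fintype lam] {Y Y' : Mf 3} [CompactSpace Y.M]
  [CompactSpace Y'.M] {D : YD Y.I Y.M κ lam} {D' : YD Y'.I Y'.M κ lam}
  {g : Y.M ≃ₘ^∞⟮Y.I, Y'.I⟯ Y'.M} {β' γ' : YC Y'.M κ lam} {r : ℕ}

theorem yj_adm (h : YJ D D' g) (H : D'.Adm β') : D.Adm (pb g β') :=
  ⟨admOn_univ.1 ((h.gRel.admOn_iff (c := cy β')).2 ((admOn_univ.2 H.adm).mono (subset_univ _))),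
    fun _ => H.tmp _⟩

theorem yj_bs (h : YJ D D' g) (hD : D.OK) (H : Bs D' β') : Bs D (pb g β') :=
  ⟨hD, Y.dim, yj_adm h H.adm, fun _ => H.zr _,
    fun z => (h.gRel.fr.Fg (mem_univ z) (cy β').W).trans (H.flat _)⟩

theorem yj_eqv (h : YJ D D' g) (H : D'.Eqv β' γ') : D.Eqv (pb g β') (pb g γ') := by
  obtain ⟨u, ζ, e⟩ := H
  have k := h.gRel
  refine ⟨fun z => u (Prod.map g id z), ζ, ⟨fun z _ => (k.fr.sm (mem_univ z)
    (e.m.su.contMDiffAt univ_mem)).contMDiffWithinAt, fun _ _ => e.m.uu _ trivial,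
    fun _ _ => e.m.uu' _ trivial, fun _ _ => e.m.J _ trivial, fun z _ b => ?_, fun z _ s => ?_⟩,
    fun z _ a => ?_, fun z _ => e.Φ (Prod.map g id z) trivial, e.z⟩
  · simp only [k.P _ _ z trivial]
    exact e.m.ρ (Prod.map g id z) trivial b
  · rw [k.l z trivial]
    exact e.m.j (Prod.map g id z) trivial s
  · have := k.fr.D (mem_univ z) a (u := fun z => u (Prod.map g id z)) (u' := u) (.of_forall fun _ => rfl)
    have t := e.W (Prod.map g id z) trivial a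
    simp only [← k.P _ _ z trivial] at t
    exact (congrArg (fun T : CL (cy β').m.V (cy γ').m.V => T + _ - _) this).trans t

theorem yj_har (h : YJ D D' g) (hD : D.OK) (hD' : D'.OK) {η : κ → Y'.M → β'.m.A} :
    Har D (pb g β') (fun k y => η k (g y)) ↔ Har D' β' η := by
  have e := fun k j y => h.fr.nab (x := y) trivial (A := A0 (pb g β')) (A' := A0 β') k
    (u := fun y => η j (g y)) (u' := η j) rfl (.of_forall fun _ => rfl)
  have d : ∀ k y, D.F.dv k y = D'.F.dv k (g y) := fun k y =>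
    h.gRel.fr.dv (x := (y, 0)) trivial hD.G.vol hD'.G.vol (some k)
  have e1 : ∀ j k y, ed Y.I D.F.e D.F.c (A0 (pb g β')) (fun k y => η k (g y)) j k y =
      ed Y'.I D'.F.e D'.F.c (A0 β') η j k (g y) := fun j k y => by
    simp only [ed, e, h.fr.c (mem_univ y)]; rfl
  have e2 : ∀ y, dv1 Y.I D.F.e D.F.dv (A0 (pb g β')) (fun k y => η k (g y)) y =
      dv1 Y'.I D'.F.e D'.F.dv (A0 β') η (g y) := fun y => by simp only [dv1, e, d]; rfl
  have e3 : ∀ k y, ∑ l, D.F.P k l y • η l (g y) = ∑ l, D'.F.P k l (g y) • η l (g y) := fun k y => by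
    simp only [h.fr.P (mem_univ y)]
  have s := g.surjective
  exact ⟨fun p => ⟨⟨fun k => s.forall.2 fun y => fsm_ld (g.isLocalDiffeomorph y) (p.sm k y),
    fun k => s.forall.2 (p.mem k), fun k => s.forall.2 fun y => (e3 k y).symm.trans (p.P k y)⟩,
    fun j k => s.forall.2 fun y => (e1 j k y).symm.trans (p.ed j k y),
    s.forall.2 fun y => (e2 y).symm.trans (p.dv y)⟩,
    fun p => ⟨⟨fun k => (p.sm k).comp g.contMDiff, fun _ _ => p.mem _ _,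
      fun k y => (e3 k y).trans (p.P k _)⟩, fun j k y => (e1 j k y).trans (p.ed j k _),
      fun y => (e2 y).trans (p.dv _)⟩⟩

theorem yj_dh (h : YJ D D' g) (hD : D.OK) (hD' : D'.OK) : dh D (pb g β') = dh D' β' := by
  let L := LinearEquiv.piCongrRight fun _ : κ => LinearEquiv.funCongrLeft ℝ β'.m.A g.toEquiv
  have e : ({ξ | Har D (pb g β') ξ} : Set (κ → Y.M → β'.m.A)) =
      L.toLinearMap '' {ξ | Har D' β' ξ} := by
    refine Set.ext fun ξ => ⟨fun p => ⟨fun k y => ξ k (g.symm y), (yj_har h hD hD').1 ?_, ?_⟩, ?_⟩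
    · simpa only [g.symm_apply_apply] using! p
    · exact funext₂ fun k y => congrArg (ξ k) (g.symm_apply_apply y)
    · rintro ⟨ξ, p, rfl⟩
      exact (yj_har h hD hD').2 p
  refine Eq.trans (congrArg (fun s : Set (κ → Y.M → β'.m.A) =>
    Module.finrank ℝ (Submodule.span ℝ s)) e) ?_
  rw [← Submodule.map_span]
  exact LinearEquiv.finrank_map_eq _ _

variable {Z Z' : Mf 4} {B : Base Z.M (Option κ) lam} {G : Geo Z.I Z.M (Option κ) lam}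
  {B' : Base Z'.M (Option κ) lam} {G' : Geo Z'.I Z'.M (Option κ) lam} {K : Nk D B G}
  {K' : Nk D' B' G'} {c : Cfg Z.M (Option κ) lam r} {c' : Cfg Z'.M (Option κ) lam r}
  {O : Set Z.M} {φ : Z.M → Z'.M} {U : Z.M → Option κ → Option κ → ℝ} {v : Z.M → En lam}
  {u : Z.M → CL c.m.V c'.m.V}

/-- exponential limits (after `Twn5.NJ.lim`) -/
theorem nj_elim (h : NJ g K K' O φ U v) (hD : D.OK) (hO : IsOpen O) (a : Ad0 c B G)
    (a' : Ad0 c' B' G') (e : CEq G.F c c' O φ U v u 1) (hβ' : D'.Adm β') {ζ : Circle}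
    {l : Filter ℝ} {d : ℝ} (L : K'.ELim d c' β' ζ l) : K.ELim d c (pb g β') ζ l := by
  obtain ⟨w, S, h1, h2, h3, L⟩ := L
  have a1 := admOn_pb K a subset_rfl
  have a2 := admOn_pb K' a' subset_rfl
  have op : IsOpen (univ ×ˢ K.J : Set (Y.M × ℝ)) := K.src ▸ K.ψ.open_source
  have a3 : AdmOn (cmC (Prod.map g id) (K'.pb (noz c'))) D.B D.G (univ ×ˢ K.J) :=
    (h.y.gRel.mono op (subset_univ _)).admOn_iff.2 (a2.mono (by
      rintro _ ⟨z, hz, rfl⟩; exact ⟨trivial, h.J ▸ hz.2⟩))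
  have s : ∀ z ∈ (univ ×ˢ K.J : Set (Y.M × ℝ)), z ∈ K.ψ.source := fun z hz => K.mem_src.2 hz.2
  have t := fun z hz => h.sub (K.ψ.map_source (s z hz))
  have su := fun z hz => K.rel.sm (s z hz) ((e.m.su _ (t z hz)).contMDiffAt (hO.mem_nhds (t z hz)))
  have q : Eq0 D.Z (K.pb (noz c)) (cmC (Prod.map g id) (K'.pb (noz c'))) (univ ×ˢ K.J)
      fun z => u (K.ψ z) := by
    refine ⟨.of_mEq op ⟨fun z hz => (su z hz).contMDiffWithinAt, fun z hz => e.m.uu _ (t z hz),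
      fun z hz => (e.m.uu' _ (t z hz)).trans (congrArg _ (h.ψ z (s z hz)).1),
      fun z hz => e.m.J _ (t z hz), fun z hz b => ?_, fun z hz x => ?_⟩ a1.ok a3.ok,
      (par0_iff (a3.conn.proj' hD.B)).2 fun z hz b => ?_,
      fun z hz => ?_, Subsingleton.elim _ _⟩
    · simpa only [h.ψ z (s z hz), K.P _ _ z (s z hz)] using! e.m.ρ _ (t z hz) b
    · simpa only [h.ψ z (s z hz), K.l z (s z hz)] using! e.m.j _ (t z hz) x
    · simpa only [h.ψ z (s z hz), K.P _ _ z (s z hz), ← K.rel.D (s z hz) b (u' := u)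
        (u := fun z => u (K.ψ z)) (.of_forall fun _ => rfl)] using! e.W _ (t z hz) b
    · simpa only [h.ψ z (s z hz), Circle.coe_one, cs_one] using! e.Φ _ (t z hz)
  have key : ∀ T ⊆ K'.J, ∀ k η, D'.Cls (K'.pb c') β' w ζ T k η → D.Cls (K.pb c) (pb g β')
      (fun z => w (Prod.map g id z) ∘L u (K.ψ z)) ζ T k η := fun T h2 k η h3 => by
    have m := prod_mono_right (s := (univ : Set Y.M)) (show T ⊆ K.J from h.J ▸ h2)
    have k1 := cl_pl (h.y.gRel.fr.mono (isOpen_univ.prod h3.op) (subset_univ _))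
      (fun z hz => mk_mem_prod (mem_univ _) hz.2) (cl_of_cls (c := K'.pb (noz c')) hβ'
        (a2.mono (prod_mono_right h2)) ⟨h3.op, h3.m, h3.A, h3.P⟩)
    have k2 := (Eqv71.cl_pre (ξ := 1) k1 hβ'.adm.ok.Jsq (q.iso.mono m) (q.par.mono m)
      fun x hx => (q.Φ x (m hx)).trans (cs_one _ _).symm)
    simp only [mul_one] at k2
    have k3 := k2.cls (β := pb g β') (yj_adm h.y hβ') h3.op (a1.mono m)
    exact ⟨k3.op, k3.m, k3.A, k3.P⟩
  exact ⟨_, S, h1, h.J ▸ h2, key S h2 _ _ h3, fun k => (L k).imp fun _ L s hs =>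
    key _ (hs.trans h2) _ _ (L s hs)⟩

end ends

theorem ex_ext {α β : Type} {P : β → Type} (x₀ : ∀ b, P b) (f : α ↪ β) (g : ∀ a, P (f a)) :
    ∃ G : ∀ b, P b, ∀ a, G (f a) = g a := by
  have : ∀ b, ∃ x : P b, ∀ a (e : f a = b), e ▸ g a = x := fun b => by
    by_cases k : ∃ a, f a = b
    · obtain ⟨a, rfl⟩ := k
      exact ⟨g a, fun a' e => by obtain rfl := f.injective e; rfl⟩
    · exact ⟨x₀ b, fun a e => (k ⟨a, e⟩).elim⟩
  choose G h using this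
  exact ⟨G, fun a => (h _ a rfl).symm⟩

open G75 Ins26 Jb7 Rf65
open Nat75 (pl tr pl_f)

variable {κ lam : Type} [Fintype κ] [Fintype lam] [DecidableEq lam] {Lm : LM κ lam}
  {S S' : Scene Lm} {D : S.Dat} {D' : S'.Dat} {i : S.L} {i' : S'.L} {Wi Wi' : Type} {r n : ℕ}
  (J : Job Wi (D.Λ i) (S.A ⊕ Unit) S.ls r n) (J' : Job Wi' (D'.Λ i') (S'.A ⊕ Unit) S'.ls r n)
  {A₀ : Type} (I : MId S.M S'.M A₀) {R₀ : A₀} {c : S.M.Cl} {c' : S'.M.Cl} {s : S.A ⊕ Unit → ℝ}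
  {φ : (D.W.Z c).M → (D'.W.Z c').M} {ψ : (D'.W.Z c').M → (D.W.Z c).M}
  {U : (D.W.Z c).M → Option κ → Option κ → ℝ}
  {v : (D.W.Z c).M → CL (Eu (lam ⊕ lam)) (Eu (lam ⊕ lam))} {ρ : Reg S.A}

/-- the identification of the cross-sections -/
abbrev gm (a : A₀) := ((J.g (I.f a)).trans (I.g a)).trans (J'.g (I.f' a)).symm

variable {J J' I} (hJ : J.OK) (hJ' : J'.OK)
include hJ hJ'

theorem yj_gm {a : A₀} (np : ¬S.M.pin (I.f a))
    (h : Cy.Iso ((S.N i).cy (I.f a)) ((S'.N i').cy (I.f' a)) (I.g a)) :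
    YJ (J.xs (I.f a)).D (J'.xs (I.f' a)).D (gm J J' I a) :=
  ((yj_of (hJ.iso _ np) ((S.N i).okY _)).trans (yj_of h ((S'.N i').okY _))).trans
    (yj_of (hJ'.iso _ fun k => np ((I.pin a).1 k)) ((S'.N i').okY _)).symm

theorem GZ.nj (G : GZ J J' I R₀ c c' s φ ψ U v) (h : ρ ∈ OP (I.f R₀) c) {a b} (e : ρ (I.f a) = some b)
    (ha : Act J.m c (I.f a) (some b) (J.Θ s))
    (ha' : Act J'.m c' (I.f' a) (some b) (J'.Θ (tr I.f I.f' s))) :
    NJ (gm J J' I a) (J.K c _ _ _ ha) (J'.K c' _ _ _ ha') (Oz D c (I.f R₀)) φ U v := by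
  have k := hJ.nk _ _ _ _ ha
  have k₂ := hJ'.nk _ _ _ _ ha'
  have p : (J.Θ s).2 (I.f a) = 1 := ha.2.1.2 ha.2.2.2
  have p₂ : (J'.Θ _).2 (I.f' a) = 1 := ha'.2.1.2 ha'.2.2.2
  have q := Cht98.isNk_J ha k
  have q₂ := Cht98.isNk_J ha' k₂
  rw [p] at q
  rw [p₂, ← q] at q₂
  refine ⟨yj_gm hJ hJ' ha.1 (G.cy a), q₂, hJ.end_sub ha (fun _ k => k.1) ⟨ρ, h, e⟩, fun z hz => ?_⟩
  have z1 := (J.K c _ _ _ ha).mem_src.1 hz
  have z2 : Cht98.li 1 b z.2 ∈ Cht98.Hs 1 b := Cht98.li_mem le_rfl (q ▸ z1 :)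
  have z3 := Cht98.isNk_ψ ha k z1
  have z4 := Cht98.isNk_ψ ha' k₂ (q := (gm J J' I a z.1, z.2)) (q₂ ▸ z1 :)
  rw [p] at z3
  rw [p₂] at z4
  have z5 := z2.2.resolve_left (lt_irrefl _)
  have := G.nk a ⟨ha.2.2.2, ha.1⟩ (J.g _ z.1) (Cht98.li 1 b z.2)
    (by cases b <;> simp at z5 <;> linarith) (abs_lt.2 z2.1) (by
      rintro rfl
      obtain rfl := OP.tru h e
      simpa using z5)
  exact z3 ▸ ⟨this.1.trans ((congrArg (fun y => D'.W.nj c' _ (y, _))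
    ((J'.g _).apply_symm_apply _).symm).trans z4.symm), this.2⟩

omit hJ hJ'

/-- **TW-OBJ** -/
theorem obj : ObjStmt Lm := by
  intro S S' V m R₀ i e d j N F F' u T H g ins c c' hR hc
  have hJ := H.hF.ok _ H.ne
  obtain ⟨σ₀, h₀⟩ := H.ne
  obtain ⟨σ₁, _, -, _, -, -, -, h₁⟩ := H.cell σ₀ h₀
  have hJ' := H.hF'.ok _ ⟨_, h₁⟩
  have yj := fun a (k : (Io m).f a ∈ cylW c) => (yj_gm hJ hJ' k.2 (Fex7.cy_iso _ H.lid a)).symm
  have o := fun a => (hJ.xs a).1.yd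
  have o' := fun a => (hJ'.xs a).1.yd
  refine ⟨fun a β β' => β' = pb (gm (F.job (m.ι i)) (F'.job (m.ι' i)) (Io m) a).symm β,
    fun a k => ⟨fun _ => ⟨_, rfl⟩, fun _ _ e b => e ▸ yj_bs (yj a k) (o' _) b,
      fun _ _ e => e ▸ (yj a k).dz_pb, fun _ _ e => e ▸ yj_dh (yj a k) (o' _) (o _),
      fun _ _ _ _ e e' b => e ▸ e' ▸ yj_eqv (yj a k) b⟩, fun δ _ _ σ hσ σ' hσ' R y hs e₁ a => ?_⟩
  obtain ⟨φ, ψ, U, v, G, -⟩ := g c c' hR hc σ hσ _ hs e₁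
  obtain ⟨hs', e₂⟩ := R.cell _ hs e₁
  obtain ⟨x0, h0⟩ := ins c' (hc.ge ⟨_, hR, rfl⟩) (by
    intro a k n
    obtain ⟨a, k', rfl⟩ := hc.le k
    exact R.nn _ _ (Hp13.Tw.sd_of_out (c.2 hR k' fun e => n (congrArg _ ((Io m).f.injective e).symm))
      (a.2.trans H.hV.le))) σ' hσ' _ hs' e₂
  obtain ⟨x', w, k⟩ := Twn5.push G.kt x0 h0 (ad0_of a) fun _ _ => rfl
  obtain ⟨β', hβ⟩ := ex_ext (P := fun a => Bool → YC ((F'.job (m.ι' i)).xs a).Y.M κ (lam ⊕ lam))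
    (fun _ _ => ⟨⟨0, 0, 0, 0, 0⟩, 0, 0, 0⟩) (Io m).f' fun a b =>
      pb (gm (F.job (m.ι i)) (F'.job (m.ι' i)) (Io m) a).symm (y.β ((Io m).f a) b)
  let y' : (F'.job (m.ι' i)).Obc c' := ⟨tr (Io m).f (Io m).f' y.s, ⟨x'.m, x'.W, 0, 0⟩, ∅, 0, β', 1, 0, 0, 0⟩
  have a' : Ad0 y'.x.con _ _ := ⟨k.adm'.ok, k.adm'.conn, contMDiff_const, fun _ => map_zero _⟩
  have k' : CEq _ y.x.con y'.x.con _ φ U v w 1 :=
    ⟨k.e.m, k.e.W, fun _ _ => by simp, Subsingleton.elim _ _⟩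
  have ov : (F'.job (m.ι' i)).Ov σ' c' y'.s := ⟨Job.cl_dom _ hs', e₂⟩
  refine ⟨y', rfl, fun a _ b => congrFun (hβ a) b, fun ρ h go => ?_⟩
  obtain ⟨p1, p2, p3, p4, p5, -⟩ := G.pcs (y' := y') h (R.pc.mapsTo h).1 hc R.cyl rfl (ad0_of a) a' k'
  have key : ∀ x ∈ EdP c' {pl (Io m).f' (Io m).f ρ}, ∃ a b, ∃ (k : (Io m).f a ∈ cylW c) (k' : _),
      x = (⟨(Io m).f' a, k'⟩, b) ∧ ρ ((Io m).f a) = some b := by
    rintro ⟨⟨a, k⟩, b⟩ ⟨_, rfl, q⟩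
    obtain ⟨a, k1, rfl⟩ := hc.le k.1
    exact ⟨a, b, ⟨k1, fun n => k.2 (((Io m).pin _).2 n)⟩, k, rfl, (pl_f _).symm.trans q⟩
  refine ⟨⟨hJ'.memBr hσ' ov, hJ'.memO hσ' ov, a'.adm0, fun x hx => ?_, fun x hx ha' => ?_,
    (un_one F'.D.W.toCaps c' _).symm ▸ p5 (un_one F.D.W.toCaps c ρ ▸ go.int)⟩, p1, p2, p3, p4⟩ <;>
    obtain ⟨b, t, k1, k2, rfl, q⟩ := key x hx
  · change Bs _ (β' ((Io m).f' b) t)
    exact (congrFun (hβ b) t).symm ▸ yj_bs (yj b k1) (o' _) (go.bs (⟨_, k1⟩, t) ⟨ρ, rfl, q⟩)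
  · have ha : Act (F.job (m.ι i)).m c ((Io m).f b) (some t) ((F.job (m.ι i)).Θ y.s) :=
      ⟨k1.2, go.br, go.O, k1.1⟩
    obtain ⟨d, d0, L⟩ := go.lim (⟨_, k1⟩, t) ⟨ρ, rfl, q⟩ ha
    refine ⟨d, d0, ?_⟩
    change Nk.ELim _ d _ (β' ((Io m).f' b) t) 1 _
    exact (congrFun (hβ b) t).symm ▸ nj_elim ((G.nj hJ hJ' h q ha ha').symm G.kt.toKG) (o' _)
      G.kt.inv.opn' a' (ad0_of a) (inv_one (G := Circle) ▸ ceq_symm G.kt.toLG G.kt.inv (ad0_of a) a' k')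
      (go.bs (⟨_, k1⟩, t) ⟨ρ, rfl, q⟩).adm L

end Crest.Agent.X212.Tw55
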