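import Crest.Agent.X212.Tw55.Main
import Crest.Agent.X212.Tw55.Obj
import Crest.Agent.X212.Twf19.Main
import Crest.Agent.X212.Hp13.TwC
import Crest.Agent.X212.Twn5.Oc
import Crest.Agent.X212.Ins6.Main
import Crest.Agent.X212.Qmd96.Mod
import Crest.Agent.X212.Nat27.Main

/-!
# Row 212, twins (helper55): the leaf TW
-/

set_option autoImplicit false
noncomputable section

namespace Crest.Agent.X212.Tw55
open G75

/-- **RF-TW** -/
theorem twStmt {κ lam : Type} [Fintype κ] [Fintype lam] [DecidableEq lam] {Lm : LM κ lam}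
    (hc : CutOK Lm) (hd : Ins26.DatStmt Lm) : Rf65.TwStmt Lm :=
  tw hc (fun _ _ _ _ _ _ _ _ _ _ J J' c c' => Nat27.inat J c J' c') (Twf19.fam hc hd)
    (Hp13.Tw.regStmt Lm) obj (Twn5.ocStmt Lm) (Ins6.insStmt Lm fun _ => Qmd96.modStmt _ _ _ _)

end Crest.Agent.X212.Tw55
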