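import Crest.Agent.X212.M.Geq
import Crest.Agent.X212.Ins30.Mod
import Crest.Agent.X212.Wrd81.LocN
import Crest.Agent.X212.An.Str
import Crest.Agent.X212.Cut54.Wld

/-!
# Row 212, twins (helper55): identification of unions of matched pieces; dead terms
-/

set_option autoImplicit false
set_option linter.unusedSectionVars false
noncomputable section
open scoped Manifold ContDiff Topology InnerProductSpace Matrix
open MeasureTheory Set Function Filter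

namespace Crest.Agent.X212.Tw55
open An M Cyl58 Eqv71
open Line51 (rl)

section wld
variable {X X' : Mf 4} {A A' A₀ κ lam : Type} [Fintype A] [Fintype A'] [Fintype A₀] [Fintype κ]
  [Fintype lam] [DecidableEq lam] {M : Mark X A κ} {M' : Mark X' A' κ} {W : World M} {W' : World M'}
  {N : ML M lam} {N' : ML M' lam} (Λ : Lns W N) (Λ' : Lns W' N') (m : M.Cl) (m' : M'.Cl) {c : M.Cl}
  {c' : M'.Cl} {p : Prm A} {p' : Prm A'} {I : MId M M' A₀} {O : Set X.M}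
  {w : X.M → Matrix lam lam ℂ}

variable (I c c' O) in
/-- matched pieces -/
structure MP (π : Reg A) (π' : Reg A') : Prop where
  pc : M.sys.Piece c.1 π
  pc' : M'.sys.Piece c'.1 π'
  sub : M.sys.U π ⊆ O
  img : M'.sys.U π' = I.ψ '' M.sys.U π
  bd : Sys.bd π ⊆ range I.f
  bd' : Sys.bd π' ⊆ range I.f'
  eq : ∀ a, π' (I.f' a) = π (I.f a)

/-- **GEQ** for unions of matched pieces -/
theorem geq_un (hW : WId W W' I O p.1 p'.1) (hL : LId N N' I O w) (hC : CId Λ Λ' I O w p.1 p'.1)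
    (hR : I.Rel O p.2 p'.2) (hp : p ∈ M.Br c.1) (ho : p ∈ M.O c.1) (hp' : p' ∈ M'.Br c'.1)
    (ho' : p' ∈ M'.O c'.1) {P : Set (Reg A)} {g : Reg A → Reg A'}
    (hP : ∀ π ∈ P, MP c c' I O π (g π)) :
    ∃ (Ψ : PartialDiffeomorph (W.Z c).I (W'.Z c').I (W.Z c).M (W'.Z c').M ∞)
      (u : (W.Z c).M → Matrix lam lam ℂ), Ψ.source = W.un c P ∧ Ψ.target = W'.un c' (g '' P) ∧
      (∀ π ∈ P, Ψ '' W.pc c π = W'.pc c' (g π)) ∧
      (∀ x ∈ ⋃ π ∈ P, M.sys.U π, Ψ (W.φ c x) = W'.φ c' (I.ψ x)) ∧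
      (∀ x ∉ M.sys.cores c.1, u (W.φ c x) = tw m c m' c' I.ψ Λ Λ' w x) ∧
      GEq (Λ.B m c) (Λ.G m c p) (Λ'.B m' c') (Λ'.G m' c' p') Ψ.toOpenPartialHomeomorph
        (Met55.rotU (W.F m c p).toPre (W'.F m' c' p').toPre Ψ) fun z => rl (u z) := by
  have := M.con
  have := M'.con
  obtain ⟨Ψ, u, k1, k2, k3, k4⟩ := geq m Λ m' Λ' hW hL hC hR hp ho hp' ho'
    (V := ⋃ π ∈ P, M.sys.U π) (isOpen_biUnion fun π _ => M.sys.isOpen_U π)
    (iUnion₂_subset fun π k => (hP π k).sub)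
    (iUnion₂_subset fun π k => ((hP π k).pc.disjoint_cores c.2).subset_compl_right)
    (fun x hx => let ⟨π, k, e⟩ := mem_iUnion₂.1 hx
      ((hP π k).pc'.disjoint_cores c'.2).subset_compl_right ((hP π k).img ▸ mem_image_of_mem _ e))
    (J := {q | M.pin (I.f q.1) ∧ ∃ π ∈ P, π (I.f q.1) = some q.2}) fun q ⟨h1, π, k, e⟩ =>
      ⟨.of_half ((hP π k).pc.bd_subset (Sys.mem_bd_of e)) h1
        (((hP π k).pc.adj _ _ e).trans (subset_biUnion_of_mem (u := M.sys.U) k)),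
        (hP π k).pc'.bd_subset (Sys.mem_bd_of (((hP π k).eq _).trans e))⟩
  have e1 : Ψ.source = W.un c P := k1.trans (Set.ext fun z => ⟨?_, fun h => ?_⟩)
  rotate_left
  · rintro (⟨x, hx, rfl⟩ | ⟨_, ⟨q, ⟨h1, π, k, e⟩, rfl⟩, e'⟩)
    · obtain ⟨π, k, e⟩ := mem_iUnion₂.1 hx
      exact mem_un.2 ⟨π, k, .inl ⟨x, e, rfl⟩⟩
    · exact mem_un.2 ⟨π, k, .inr ⟨_, _, h1, e, e'⟩⟩
  · obtain ⟨π, k, ⟨x, e, rfl⟩ | ⟨a, b, h1, e, e'⟩⟩ := mem_un.1 h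
    · exact .inl ⟨x, mem_biUnion k e, rfl⟩
    · obtain ⟨a, rfl⟩ := (hP π k).bd (Sys.mem_bd_of e)
      exact .inr ⟨_, ⟨(a, b), ⟨h1, π, k, e⟩, rfl⟩, e'⟩
  have e2 : Ψ.target = W'.un c' (g '' P) := k2.trans (Set.ext fun z => ⟨?_, fun h => ?_⟩)
  rotate_left
  · rintro (⟨_, ⟨x, hx, rfl⟩, rfl⟩ | ⟨_, ⟨q, ⟨h1, π, k, e⟩, rfl⟩, e'⟩)
    · obtain ⟨π, k, e⟩ := mem_iUnion₂.1 hx
      exact mem_un.2 ⟨_, ⟨π, k, rfl⟩, .inl ⟨_, (hP π k).img ▸ mem_image_of_mem _ e, rfl⟩⟩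
    · exact mem_un.2 ⟨_, ⟨π, k, rfl⟩, .inr ⟨_, _, (I.pin _).2 h1, ((hP π k).eq _).trans e, e'⟩⟩
  · obtain ⟨_, ⟨π, k, rfl⟩, ⟨x, e, rfl⟩ | ⟨a, b, h1, e, e'⟩⟩ := mem_un.1 h
    · obtain ⟨x, e', rfl⟩ := (hP π k).img.le e
      exact .inl ⟨_, ⟨x, mem_biUnion k e', rfl⟩, rfl⟩
    · obtain ⟨a, rfl⟩ := (hP π k).bd' (Sys.mem_bd_of e)
      exact .inr ⟨_, ⟨(a, b), ⟨(I.pin _).1 h1, π, k, ((hP π k).eq _).symm.trans e⟩, rfl⟩, e'⟩
  refine ⟨Ψ, u, e1, e2, fun π k => ?_, k3, k4⟩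
  have h := hP π k
  obtain ⟨x, hx⟩ := h.pc.toIsReg.nonempty
  have s : W.pc c π ⊆ Ψ.source := fun z hz => e1 ▸ mem_un.2 ⟨π, k, hz⟩
  have t : W'.pc c' (g π) ⊆ Ψ.target := fun z hz => e2 ▸ mem_un.2 ⟨_, ⟨π, k, rfl⟩, hz⟩
  have a : W.φ c x ∈ W.pc c π := .inl ⟨x, hx, rfl⟩
  have b : Ψ (W.φ c x) ∈ W'.pc c' (g π) :=
    k3 x (mem_biUnion k hx) ▸ .inl ⟨_, h.img ▸ mem_image_of_mem _ hx, rfl⟩
  refine Subset.antisymm (((isConnected_pc W.toCaps h.pc).isPreconnected.image _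
    (Ψ.contMDiffOn_toFun.continuousOn.mono s)).subset_isClopen (isClopen_pc W'.toCaps h.pc')
    ⟨_, ⟨_, a, rfl⟩, b⟩) fun z hz => ⟨Ψ.symm z, ?_, Ψ.right_inv (t hz)⟩
  exact ((isConnected_pc W'.toCaps h.pc').isPreconnected.image _
    (Ψ.contMDiffOn_invFun.continuousOn.mono t)).subset_isClopen (isClopen_pc W.toCaps h.pc)
    ⟨_, ⟨_, b, Ψ.left_inv (s a)⟩, a⟩ ⟨z, hz, rfl⟩

/-- the square of transports -/
theorem sq (hL : LId N N' I O w) {Ψ : (W.Z c).M → (W'.Z c').M} {u : (W.Z c).M → Matrix lam lam ℂ}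
    (hU : O ⊆ (M.sys.cores c.1)ᶜ) (hU' : ∀ x ∈ O, I.ψ x ∉ M'.sys.cores c'.1)
    (he : ∀ x ∈ O, Ψ (W.φ c x) = W'.φ c' (I.ψ x))
    (hu : ∀ x ∉ M.sys.cores c.1, u (W.φ c x) = tw m c m' c' I.ψ Λ Λ' w x) :
    Ins30.Sq (Tp.of (W.φ c).toPartialEquiv fun x => rl (Λ.v m c x))
      (Tp.of (W'.φ c').toPartialEquiv fun x => rl (Λ'.v m' c' x)) O I.ψ (fun x => rl (w x))
      (W.φ c '' O) Ψ fun z => rl (u z) := Ins30.sq_of _ _ fun z hz => by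
  obtain ⟨x, hx, rfl⟩ := hz
  have k := (W.mem_src c).2 (hU hx)
  have k' := (W'.mem_src c').2 (hU' x hx)
  have a := hL.uni.iso x hx
  have b := (Λ.uni m c).iso x k
  have d := (Λ'.uni m' c').iso _ k'
  refine ⟨x, hx, k, rfl, k', he x hx, ?_⟩
  rw [hu x (hU hx)]
  refine Cut54.sq_rl a b d (b.symm.trans (a.trans d)) ?_
  rw [tw, Matrix.mul_assoc, b.src, Matrix.mul_assoc, a.idem]

end wld

section van
variable {E : Type} [NormedAddCommGroup E] [NormedSpace ℝ E] [FiniteDimensional ℝ E]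
  [MeasurableSpace E] [BorelSpace E]
  {HM : Type} [TopologicalSpace HM] {I : ModelWithCorners ℝ E HM} [I.Boundaryless]
  {M : Type} [TopologicalSpace M] [ChartedSpace HM M] [IsManifold I ∞ M] [T2Space M]
  [MeasurableSpace M] [BorelSpace M] [SecondCountableTopology M] {ι : Type} [Fintype ι]
  {lam : Type} [Fintype lam]
  {E' : Type} [NormedAddCommGroup E'] [NormedSpace ℝ E'] [FiniteDimensional ℝ E']
  [MeasurableSpace E'] [BorelSpace E']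
  {HM' : Type} [TopologicalSpace HM'] {I' : ModelWithCorners ℝ E' HM'} [I'.Boundaryless]
  {M' : Type} [TopologicalSpace M'] [ChartedSpace HM' M'] [IsManifold I' ∞ M'] [T2Space M']
  [MeasurableSpace M'] [BorelSpace M'] [SecondCountableTopology M'] {ι' : Type} [Fintype ι']
  {lam' : Type} [Fintype lam']
  {B : Base M ι lam} {G : Geo I M ι lam} {B' : Base M' ι' lam'} {G' : Geo I' M' ι' lam'}
  {O : Set M} {O' : Set M'} {φ : M → M'} {ψ : M' → M}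
  {U : M → ι' → ι → ℝ} {v : M → CL (Eu lam) (Eu lam')} {r n : ℕ}

theorem dead (hO : IsClopen O) (hT : ∃ C, G.F.Tame C) {c : Cfg M ι lam r} (h : Ad0 c B G)
    (h0 : ∀ x ∉ O, c.Φ x = 0) {T : Tm M lam r n} {a : ℝ} (k : a = 0 ∨ T.Van O) :
    (∀ x ∈ O, ((An.tmP B G.F T).smul a).D c x = 0 ∧ ((An.tmP B G.F T).smul a).C c x = 0) ∧
      ∀ i, ((An.tmP B G.F T).smul a).S c i = 0 := by
  rcases k with rfl | k
  · simp [Pt.smul]
  · obtain ⟨h1, h2⟩ := Wrd81.van_tm hO hT h h0 k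
    exact ⟨fun x hx => by simp [Pt.smul, An.tmP, h1 x hx], by simp [Pt.smul, An.tmP, h2]⟩

/-- dead terms are related -/
theorem dead_rel (g : KT B G B' G' O O' φ ψ U v) {T : Tm M lam r n} {T' : Tm M' lam' r n} {a a' : ℝ}
    (h : a = 0 ∨ T.Van O) (h' : a' = 0 ∨ T'.Van O') :
    PRel0 B G B' G' O O' φ U v ((An.tmP B G.F T).smul a) ((An.tmP B' G'.F T').smul a') := by
  refine ⟨fun k x hx => ?_, fun k x hx => ?_, fun k i => ?_⟩ <;>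
    obtain ⟨h1, h2⟩ := dead g.toKC.clopen g.tame k.adm k.off h <;>
    obtain ⟨h3, h4⟩ := dead g.toKC.clopen' g.tame' k.adm' k.off' h'
  · rw [(h1 x hx).1, (h3 _ (g.inv.maps hx)).1, map_zero, ← csL_apply, map_zero]
  · rw [(h1 x hx).2, (h3 _ (g.inv.maps hx)).2, map_zero]
  · rw [h2, h4, mul_zero]

end van

end Crest.Agent.X212.Tw55
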