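import Crest.Agent.X212.Tw55.Bas
import Crest.Agent.X212.Tw55.GeoA
import Crest.Agent.X212.Wrd81.Loc
import Crest.Agent.X212.Fex7.Iso

/-!
# Row 212, twins (helper55): TW-GEO
-/

set_option autoImplicit false
set_option linter.unusedSectionVars false
noncomputable section
open scoped Manifold ContDiff Topology
open Set Function Filter

namespace Crest.Agent.X212.Tw55
open An M G75 Ins26 Jb7 Rf65 Eqv71
open Nat75 (pl tr ce0 mem_sp)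
open Twn5 (OP)
open Line51 (rl)
open Nd18 (fsum)

variable {κ lam : Type} [Fintype κ] [Fintype lam] [DecidableEq lam] {Lm : LM κ lam}
  {S S' : Scene Lm} {V : Set S.X.M} {m : Mt S S' V} {R₀ : Ao m} {i : m.L₀} {e : Bool → S.A}
  {d j N : ℕ} {F : Fam S j N} {F' : Fam S' j N} {u : F.Wi ↪ F'.Wi} {T : ℝ}

theorem op_one {R : S.A} {c : S.M.Cl} (h : c.1 = {R}) : ⋃ ρ ∈ OP R c, S.M.sys.U ρ = Ox S R :=
  Set.ext fun x => (mem_op (h.ge rfl)).trans (and_iff_left_of_imp fun hx k => by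
    rw [h, Sys.cores, biUnion_singleton] at k
    exact k true hx)

theorem oz_one (D : S.Dat) {R : S.A} {c : S.M.Cl} (h : c.1 = {R}) (np : ¬S.M.pin R) :
    Oz D c R = D.W.φ c '' Ox S R := by
  rw [← op_one h]
  refine Set.ext fun z => ⟨fun k => ?_, ?_⟩
  · obtain ⟨π, k', ⟨x, e, rfl⟩ | ⟨a, b, h1, e, -⟩⟩ := mem_un.1 k
    · exact ⟨x, mem_biUnion k' e, rfl⟩
    · exact (np ((h.le (k'.1.bd_subset (Sys.mem_bd_of e)) : a = R) ▸ h1)).elim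
  · rintro ⟨x, hx, rfl⟩
    obtain ⟨π, k, e⟩ := mem_iUnion₂.1 hx
    exact mem_un.2 ⟨π, k, .inl ⟨x, e, rfl⟩⟩

/-- the terms correspond -/
theorem tz (hc : CutOK Lm) (H : Tw0 m R₀ i e d F F' u T) {c : S.M.Cl} {c' : S'.M.Cl} {σ σ' s φ ψ U}
    {w : (F.D.W.Z c).M → Matrix lam lam ℂ}
    (h : σ ∈ F.𝒦 (m.ι i)) (h' : σ' ∈ F'.𝒦 (m.ι' i)) (o : (F.job (m.ι i)).Ov σ c s)
    (o' : (F'.job (m.ι' i)).Ov σ' c' (tr (Io m).f (Io m).f' s)) (e1 : c.1 = {(Io m).f R₀})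
    (e2 : c'.1 = {(Io m).f' R₀}) (t : Tt m R₀ i F F' u s)
    (g : GZ (F.job (m.ι i)) (F'.job (m.ι' i)) (Io m) R₀ c c' s φ ψ U fun z => rl (w z))
    (he : ∀ x ∈ Ox S ((Io m).f R₀), φ (F.D.W.φ c x) = F'.D.W.φ c' (m.I.ψ x))
    (hu : ∀ x ∉ S.M.sys.cores c.1, w (F.D.W.φ c x) =
      tw F.m c F'.m c' m.I.ψ (F.D.Λ (m.ι i)) (F'.D.Λ (m.ι' i)) (m.w i) x) :
    TZ (F.job (m.ι i)) (F'.job (m.ι' i)) (Io m) R₀ u c c' s φ U fun z => rl (w z) := by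
  have hJ := H.hF.ok _ ⟨_, h⟩
  have hJ' := H.hF'.ok _ ⟨_, h'⟩
  have U1 : Ox S ((Io m).f R₀) ⊆ (S.M.sys.cores c.1)ᶜ := fun x k =>
    ((mem_op (e1.ge rfl)).1 ((op_one e1).ge k)).2
  have Q : Ins30.Sq ((F.job (m.ι i)).tp c) ((F'.job (m.ι' i)).tp c') _ _ _ (Oz F.D c ((Io m).f R₀)) φ
      fun z => rl (w z) := (oz_one F.D e1 H.np).symm ▸ sq _ _ F.m F'.m H.lid U1 (fun x k =>
    ((mem_op (e2.ge rfl)).1 ((op_one e2).ge (((Io m).sd R₀ true x (H.lid.sub k)).2 k))).2) he hu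
  refine ⟨fun q => ?_, fun a k k' => ?_⟩
  · rw [Ink3.τ_nil _ _ (fun _ => Ink3.nd0_nil) fun _ _ => rfl,
      Ink3.τ_nil _ _ (fun _ => Ink3.nd0_nil) fun _ _ => rfl]
    have k : fsum (Ink3.τf (F'.job (m.ι' i)) c' (tr (Io m).f (Io m).f' s)) q =
        fsum (fun v => Ink3.τf (F'.job (m.ι' i)) c' (tr (Io m).f (Io m).f' s) (u v)) (rs u q) := by
      refine Ink3.pt_ext (fun c x => ?_) (fun c x => ?_) fun c x => ?_ <;> simp only [fsum] <;>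
        refine Ins30.sum_rs u q fun v hv a => ?_ <;>
        simp [Pt.smul, (t.off v hv).1]
    refine k ▸ prel0_fsum (fun v => ?_) _
    obtain ⟨k1, k2⟩ | ⟨k1, k2⟩ := t.co v
    · by_cases h0 : (F.job (m.ι i)).co v s = 0
      · exact dead_rel g.kt (.inl h0) (.inl (k1.trans h0))
      · rw [Ink3.τf, Ink3.τf, show (F'.job (m.ι' i)).co (u v) _ = (F.job (m.ι i)).co v s from k1]
        exact (tm_rel0 g.kt (Q.tm (k2 h0)) (hJ.tw_in h o h0).choose_spec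
          (hJ'.tw_in h' o' (k1.trans_ne h0)).choose_spec).smul _
    · exact dead_rel g.kt (k1.imp_right fun v => Job.van_tp (fun _ k => k.1) ((op_one e1).symm ▸ v))
        (k2.imp_right fun v => Job.van_tp (fun _ k => k.1) ((op_one e2).symm ▸ v))
  have r := H.ct hc k k'
  have R : ((F.job (m.ι i)).cut c ⟨_, k⟩).Rel ((F'.job (m.ι' i)).cut c' ⟨_, k'⟩) _ φ _ := Q.cut r
    fun x hx => ⟨(oz_one F.D e1 H.np).ge ⟨x, hx, rfl⟩, (he x hx).symm⟩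
  have n : S.nb ⟨_, k⟩ ⊆ _ := subset_union_left.trans (H.hf_out k)
  have u1 : ⟨_, k⟩ ∈ (F.job (m.ι i)).unc c := disjoint_left.2 fun x hx => U1 (n hx)
  have u2 : ⟨_, k'⟩ ∈ (F'.job (m.ι' i)).unc c' := disjoint_left.2 fun y hy => by
    obtain ⟨x, hx, rfl⟩ := (m.nb_img H.ok H.ok' (Tw1.mem_ls k') k k' i).le hy
    exact ((mem_op (e2.ge rfl)).1 ((op_one e2).ge (((Io m).sd R₀ true x (H.lid.sub (n hx))).2 (n hx)))).2
  refine ⟨R, fun q {x x' u' ζ} b ξ a => ?_⟩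
  rw [Job.σc, Job.σc, Ins30.sum_rs u q fun v hv a => by
    rw [show (F'.job (m.ι' i)).cc _ v _ = 0 from (t.off v hv).2 _, mul_zero, zero_smul]]
  simp only [Finsupp.sum, _root_.sum_apply, _root_.smul_apply, map_sum, map_smul]
  refine Finset.sum_congr rfl fun v _ => ?_
  obtain ⟨k1, k2⟩ := t.cc _ k k' v
  rw [k1]
  by_cases h0 : (F.t (m.ι i)).cc ⟨_, k⟩ v s = 0
  · rw [h0, mul_zero, zero_smul, zero_smul]
  · rw [b.tc g.kt ξ (hJ.ct σ h s o.1 _ o.2 _ u1) (hJ'.ct σ' h' _ o'.1 _ o'.2 _ u2) R (Q.tc (k2 h0))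
      (hJ.tc_in h o h0).choose_spec (hJ'.tc_in h' o' (k1.trans_ne h0)).choose_spec a]

/-- **TW-GEO** -/
theorem geo (hc : CutOK Lm) : GeoStmt Lm := by
  intro S S' V m R₀ i e d j N F F' u T H c c' hR hc' σ₁ h₁ s hs e₁
  have := S.M.con
  have := S'.M.con
  obtain ⟨σ, b, r, P⟩ := H.pm h₁ hs
  have hJ := H.hF.ok _ ⟨_, h₁⟩
  have hJ' := H.hF'.ok _ ⟨_, P.r⟩
  have o : (F.job (m.ι i)).Ov σ₁ c s := ⟨Job.cl_dom _ hs, e₁⟩
  have o' : (F'.job (m.ι' i)).Ov _ c' (tr (Io m).f (Io m).f' s) :=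
    ⟨Job.cl_dom _ (H.cl' P), (H.inf' P).trans (e₁.symm ▸ hc'.symm)⟩
  have C := H.cc hR (fun a k => (H.act P (Sys.inf_subset _ (e₁.ge k))).imp_right fun k => ⟨b, k⟩) hc'
  have u0 : ((F.job (m.ι i)).Θ s).1 = F.uf 0 := congrArg F.uf ((mem_sp.1 P.s.1).2 ())
  have u0' : ((F'.job (m.ι' i)).Θ (tr (Io m).f (Io m).f' s)).1 = F'.uf 0 :=
    congrArg F'.uf ((mem_sp.1 P.s.1).2 ())
  obtain ⟨Ψ, w, k1, k2, k3, k4, k5, k6⟩ := geq_un (F.D.Λ (m.ι i)) (F'.D.Λ (m.ι' i)) F.m F'.m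
    (u0.symm ▸ u0'.symm ▸ H.met) H.lid (u0.symm ▸ u0'.symm ▸ H.con) (H.rel P) (hJ.memBr h₁ o)
    (hJ.memO h₁ o) (hJ'.memBr P.r o') (hJ'.memO P.r o') (P := OP ((Io m).f R₀) c)
    (g := pl (Io m).f' (Io m).f) fun π k =>
      ⟨k.1, (C.po k).1, k.2, C.img k, C.bd k, fun _ => Nat75.pl_bd, Nat75.pl_f⟩
  replace k2 := k2.trans (congrArg _ C.bij.image_eq)
  have g := kg_of_geq k6 (Lns.B_ok _ _ _) (hJ.G_ok h₁ o) (Lns.B_ok _ _ _) (hJ'.G_ok P.r o')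
    Ψ.open_source subset_rfl
  have e0 : Ψ.toOpenPartialHomeomorph '' Ψ.source = Ψ.target :=
    Ψ.toPartialEquiv.image_source_eq_target
  rw [e0, k1, k2] at g
  have G : GZ (F.job (m.ι i)) (F'.job (m.ι' i)) (Io m) R₀ c c' s Ψ Ψ.symm
      (Met55.rotU (F.D.W.F F.m c ((F.job (m.ι i)).Θ s)).toPre
        (F'.D.W.F F'.m c' ((F'.job (m.ι' i)).Θ (tr (Io m).f (Io m).f' s))).toPre Ψ) fun z => rl (w z) := by
    refine ⟨kt_of g (Job.isClopen_un fun _ k => k.1).1 (Job.isClopen_un fun _ k => k.1).1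
      (hJ.tame h₁ o) (hJ'.tame P.r o'), k3, Fex7.cy_iso _ H.lid, fun a ha y t t0 t1 t2 => ?_⟩
    have ha' : (Io m).f' a ∈ c'.1 := hc'.ge ⟨a, ha.1, rfl⟩
    have L : S.M.Lit F.m.1 c.1 ((Io m).f a) t := ⟨t1.le, .inl ⟨ha.1, t0⟩⟩
    have L' : S'.M.Lit F'.m.1 c'.1 ((Io m).f' a) t := ⟨t1.le, .inl ⟨ha', t0⟩⟩
    have x1 : (S.M.bn ((Io m).f a)).j (y, t) ∈ Ox S ((Io m).f R₀) := by
      by_cases k : a = R₀
      · subst k
        exact (S.M.bn _).j_mem_sd.2 (by simpa [M.pm] using t2 rfl)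
      · exact Hp13.Tw.sd_of_out (c.2 hR ha.1 fun n => k ((Io m).f.injective n).symm)
          (a.2.trans H.hV.le) ⟨_, rfl⟩
    have x2 := (mem_op hR).2 ⟨x1, Mark.Lit.not_mem (q := (y, t)) L⟩
    refine ⟨(k4 _ x2).trans (congrArg _ ((Io m).jj a (y, t))), fun k l => ?_,
      congrArg rl ((k5 _ (Mark.Lit.not_mem (q := (y, t)) L)).trans
        (tw_lit (q := (y, t)) _ _ H.lid x1 L L'))⟩
    obtain ⟨π, p1, p2⟩ := mem_iUnion₂.1 x2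
    exact rot_lit (q := (y, t)) (hJ.memO h₁ o) (hJ'.memO P.r o')
      (isOpen_biUnion fun π _ => S.M.sys.isOpen_U π) k4 x2 (k1 ▸ mem_un.2 ⟨π, p1, .inl ⟨_, p2, rfl⟩⟩)
      ha.2 L L' (.inl ha.1) (.inl ha') ((Mark.tv_mem ha' _).trans (Mark.tv_mem ha.1 _).symm) (.inr t0) k l
  refine ⟨_, _, _, _, G, fun e1 ⟨τ, e2⟩ => ?_⟩
  subst e2
  obtain ⟨a, a1, a2⟩ := hJ.inf _ h₁ s o.1 _ (e₁.ge hR)
  obtain rfl := ((Sk.hd_eq (S := F.sk _) (r := 0) (n := 0)).1 a1).2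
  refine tz hc H h₁ P.r o o' e1 ?_ (H.tm τ h₁ s hs a2) G (fun x k => k4 x ((op_one e1).ge k)) k5
  rw [hc', e1, ← image_singleton, preimage_image_eq _ (Io m).f.injective, image_singleton]

end Crest.Agent.X212.Tw55
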