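import Crest.Agent.X212.Tw55.Geo
import Crest.Agent.X212.Twn5.Main
import Crest.Agent.X212.Nat75.Main

/-!
# Row 212, twins (helper55): the leaf TW from its parts
-/

set_option autoImplicit false
set_option linter.unusedSectionVars false
noncomputable section
open scoped Manifold ContDiff Topology
open Set Function Filter

namespace Crest.Agent.X212.Tw55
open An M G75 Ins26 Jb7 Rf65
open Nat75 (ce0)

variable {κ lam : Type} [Fintype κ] [Fintype lam] [DecidableEq lam] {Lm : LM κ lam}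

/-- **RF-TW** (`nat := fun .. => Nat27.inat ..`) -/
theorem tw (hc : CutOK Lm) (nat : ∀ (S S' : Scene Lm) (D : S.Dat) (D' : S'.Dat) i i' Wi Wi' r n
      (J : Job Wi (D.Λ i) (S.A ⊕ Unit) S.ls r n) (J' : Job Wi' (D'.Λ i') (S'.A ⊕ Unit) S'.ls r n) c c',
      INat J c J' c') (fam : FamStmt Lm) (reg : RegStmt Lm) (obj : ObjStmt Lm) (oc : OcStmt Lm)
    (ins : InsStmt Lm) : TwStmt Lm := by
  intro S S' R e
  generalize hV : hf S.M R true = V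
  rintro m R₀ j N d c P rfl img fz cn h cn' rea c0 T hT
  let R₁ : Ao m := ⟨R₀, subset_union_right.trans hV.le⟩
  let C : m.L₀ → Set (Finset (Ao m)) := fun i =>
    {σ' | ∃ σ, c i σ ≠ 0 ∧ σ'.map (.subtype _) = insert R₀ σ}
  have t1 : ∀ i σ, c i σ ≠ 0 → Tw1 m R₁ i e := fun i σ k =>
    let ⟨_, _, _, a, b, c, d⟩ := h i σ k; ⟨hV.symm, img, fz, cn'.ok, cn.ok, a, b, c, d⟩
  have ex : ∀ i σ, c i σ ≠ 0 → ∃ σ' : Finset (Ao m), σ'.map (.subtype _) = insert R₀ σ := fun i σ k => by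
    classical
    refine ⟨_, Finset.subtype_map_of_mem fun a ha => (Finset.mem_insert.1 ha).elim
      (fun k => k ▸ R₁.2) fun ha x hx => ?_⟩
    obtain ⟨n, -, ⟨k1, -⟩, -, -, ⟨_, _, _, _, _, D⟩, -⟩ := h i σ k
    have s := m.I.sub a hx
    refine hV.le (.inl ((m.I.sd R₀ true x s).1 ((D.out _ k1 (by simp) (m.I.f' a) (by simp [ha])).resolve_left
      (fun k => n (m.I.f'.injective k ▸ ha)) ((Met55.mem_band m.I a s).2 hx))))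
  have eA : ∀ {σ' : Finset (Ao m)} {σ}, σ'.map (.subtype _) = insert R₀ σ →
      σ'.map (Io m).f = σ.map m.I.f ∪ {m.I.f R₀} ∧ σ'.map (Io m).f' = σ.map m.I.f' ∪ {m.I.f' R₀} ∧
      ∀ b, insert (e b) (σ'.map (Io m).f) = σ.map m.I.f ∪ {m.I.f R₀, e b} := fun {σ' σ} k => by
    have a : σ'.map (Io m).f = σ.map m.I.f ∪ {m.I.f R₀} := (Finset.map_map _ _ _).symm.trans (by
      rw [k, Finset.map_insert, Finset.union_comm, Finset.insert_eq])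
    refine ⟨a, (Finset.map_map _ _ _).symm.trans (by
      rw [k, Finset.map_insert, Finset.union_comm, Finset.insert_eq]), fun b => ?_⟩
    rw [a, Finset.pair_comm, Finset.union_insert]
  have r1 : ∀ {σ' : Finset (Ao m)} {σ}, σ'.map (.subtype _) = insert R₀ σ → R₁ ∈ σ' := fun k =>
    (Finset.mem_map' (.subtype _)).1 (k.ge (Finset.mem_insert_self _ _))
  obtain ⟨i₀, σ₀, k₀⟩ : ∃ i σ, c i σ ≠ 0 := by
    by_contra! n
    exact c0 (funext₂ n)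
  obtain ⟨F, F', u, h1, h2, h3, h4, h5, h6, h7, h8⟩ := fam S S' V m R₁ e j N d C P
    ⟨i₀, let ⟨σ', k⟩ := ex i₀ σ₀ k₀; ⟨σ', σ₀, k₀, k⟩⟩ (by
      rintro i σ' ⟨σ, k, k'⟩
      obtain ⟨a1, a2, a3⟩ := eA k'
      obtain ⟨-, b1, b2⟩ := cn.cl.mem (m.ι' i) (σ.map m.I.f') (by rwa [Mt.r, Nat75.pj_map])
      refine ⟨t1 i σ k, r1 k', ?_, fun a ha => ?_, fun b => (a3 b).symm ▸ (h i σ k).2.1 b,
        a2.symm ▸ (h i σ k).2.2.1⟩
      · rw [← Finset.card_map, k', ← b1, Finset.card_map]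
        exact Finset.card_insert_le _ _
      · refine (Finset.mem_insert.1 (k'.le (Finset.mem_map_of_mem _ ha))).imp Subtype.ext fun n => ?_
        exact (b2 _ (Finset.mem_map_of_mem _ n)).imp (m.I.pin _).1 fun l =>
          ⟨((t1 i σ k).ls_iff a).1 l, l⟩) rea T hT
  have H₀ := let ⟨σ', k⟩ := ex i₀ σ₀ k₀; (h8 i₀ σ' ⟨σ₀, k₀, k⟩).2.2
  refine ⟨F, F', u, h1, h2, H₀.X, H₀.X', H₀.n₀, H₀.n₀', h3, h4, h5, fun i₁ σ₁ k => ?_,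
    fun i₁ σ₁ k => ?_, fun i σ k => ?_⟩
  · obtain ⟨i, σ', ⟨σ, k1, k2⟩, b, τ, k3, k4⟩ := h6 i₁ σ₁ k
    exact ⟨i, σ, b, τ, (eA k2).2.2 b ▸ k3, k1, k4⟩
  · obtain ⟨i, σ', ⟨σ, k1, k2⟩, τ, k3, k4⟩ := h7 i₁ σ₁ k
    exact ⟨i, σ, τ, (eA k2).2.1 ▸ k3, k1, k4⟩
  obtain ⟨σ', k'⟩ := ex i σ k
  obtain ⟨a1, a2, a3⟩ := eA k'
  obtain ⟨b1, b2, H⟩ := h8 i σ' ⟨σ, k, k'⟩
  have hJ := h1.ok _ ⟨_, b1 false⟩
  have hJ' := h2.ok _ ⟨_, b2⟩
  have g := geo hc _ _ _ _ _ _ _ _ _ _ _ _ _ _ H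
  obtain ⟨g1, g2⟩ := reg _ _ _ _ _ _ _ _ _ _ _ _ _ _ H
  obtain ⟨Q, hQ⟩ := H.rs
  obtain ⟨_, _, _, _, _, D⟩ := H.ds
  have i1 := ins _ _ _ _ _ _ _ _ _ hJ hQ.np hQ.ref
  have i2 := ins _ _ _ _ _ _ _ _ _ hJ' D.np D.ref
  refine ⟨fun b => a3 b ▸ b1 b, a2 ▸ b2, Twn5.twn ⟨hJ, hJ', ⟨_, b2⟩, nat _ _ _ _ _ _ _ _ _ _ _ _,
    (Io m).pin, fun _ => H.ls_r, g2⟩ g1 (obj _ _ _ _ _ _ _ _ _ _ _ _ _ _ H g i2) j, fun q => ?_⟩
  have b3 := Nat75.erase_mem h1 (b1 false) (e false)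
  rw [Finset.erase_insert fun n => H.e_out false (let ⟨x, _, y⟩ := Finset.mem_map.1 n; ⟨x, y⟩)] at b3
  rw [← a1, ← a2]
  exact g2 ▸ oc _ _ _ _ _ _ _ _ _ _ _ _ _ _ H g i1 i2 σ' _ (r1 k') b3 b2 q

end Crest.Agent.X212.Tw55
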