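import Crest.Agent.X212.Tw55.Defs
import Crest.Agent.X212.Wrd81.Trf

/-!
# Row 212, twins (helper55): what passes to the matched pieces
-/

set_option autoImplicit false
set_option linter.unusedSectionVars false
noncomputable section
open scoped Manifold ContDiff Topology InnerProductSpace
open MeasureTheory Set Function Filter

namespace Crest.Agent.X212.Tw55
open An Eqv71 Nd18 Mod61

section gen
variable {E : Type} [NormedAddCommGroup E] [NormedSpace ℝ E] [FiniteDimensional ℝ E]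
  [MeasurableSpace E] [BorelSpace E]
  {HM : Type} [TopologicalSpace HM] {I : ModelWithCorners ℝ E HM}
  {M : Type} [TopologicalSpace M] [ChartedSpace HM M] [IsManifold I ∞ M]
  [MeasurableSpace M] [BorelSpace M] {ι : Type} [Fintype ι] {lam : Type} [Fintype lam]
  {E' : Type} [NormedAddCommGroup E'] [NormedSpace ℝ E'] [FiniteDimensional ℝ E']
  [MeasurableSpace E'] [BorelSpace E']
  {HM' : Type} [TopologicalSpace HM'] {I' : ModelWithCorners ℝ E' HM'}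
  {M' : Type} [TopologicalSpace M'] [ChartedSpace HM' M'] [IsManifold I' ∞ M']
  [MeasurableSpace M'] [BorelSpace M'] {ι' : Type} [Fintype ι'] {lam' : Type} [Fintype lam']
  {B : Base M ι lam} {G : Geo I M ι lam} {B' : Base M' ι' lam'} {G' : Geo I' M' ι' lam'}
  {O : Set M} {O' : Set M'} {φ : M → M'} {ψ : M' → M} {U : M → ι' → ι → ℝ}
  {v : M → CL (Eu lam) (Eu lam')} {x : M} {r r' : ℕ} (g : KG B G B' G' O O' φ ψ U v)
include g

theorem kg_sub {s : Set M} {s' : Set M'} (hs : s ⊆ O) (h : IsOpen s) (h' : IsOpen s')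
    (e : φ '' s = s') : KG B G B' G' s s' φ ψ U v :=
  have k : s' ⊆ O' := e ▸ image_subset_iff.2 fun _ hx => g.inv.maps (hs hx)
  ⟨g.toLG.mono h hs, ⟨h', e ▸ mapsTo_image _ _, fun _ hy =>
      let ⟨x, a, b⟩ := e.ge hy; b ▸ (g.inv.linv x (hs a)).symm ▸ a,
    fun x hx => g.inv.linv x (hs hx), fun y hy => g.inv.rinv y (k hy), fun y hy => g.inv.sψ y (k hy)⟩,
    map_restr g.rot.opn (fun x hx => (g.rot.sφ x hx).continuousAt) g.μ h' k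
      (e ▸ (LeftInvOn.injOn g.inv.linv).preimage_image_inter hs)⟩

theorem int_tr {f : M → ℝ} {f' : M' → ℝ} (e : ∀ x ∈ O, f' (φ x) = f x) (h : IntegrableOn f O G.F.μ) :
    IntegrableOn f' O' G'.F.μ := by
  rw [IntegrableOn, ← g.symm.μ] at h
  exact IntegrableOn.congr_fun (h.comp_aemeasurable (aem_of_cont g.inv.opn' fun y hy =>
    (g.inv.sψ y hy).continuousAt)) (fun y hy => (e _ (g.inv.maps' hy)).symm.trans
      (congrArg f' (g.inv.rinv y hy))) g.inv.opn'.measurableSet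

variable {c : Cfg M ι lam r} {c' : Cfg M' ι' lam' r'} {u : M → CL c.m.V c'.m.V}
  (h : LM B G B' G' O φ U v c.W c'.W u)
include h

theorem nF (hx : x ∈ O) : ‖c'.m.Fg G'.F c'.W (φ x)‖ ^ 2 = ‖c.m.Fg G.F c.W x‖ ^ 2 := by
  have k := (h.symm g.inv).Fg (g.inv.maps hx)
  simp only [g.inv.linv x hx] at k
  rw [← real_inner_self_eq_norm_sq, ← real_inner_self_eq_norm_sq]
  nth_rewrite 1 [h.Fg hx]
  rw [inner_ridx _ (inner_cj (u x))]
  exact congrArg _ k.symm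

theorem nP (hx : x ∈ O) : ‖c'.m.p2 B' (φ x) (c'.m.Fg G'.F c'.W (φ x))‖ ^ 2 =
    ‖c.m.p2 B x (c.m.Fg G.F c.W x)‖ ^ 2 := by
  have a := Wz78.norm_Fg_sq (x := x) h.hG h.cn h.hB
  have b := Wz78.norm_Fg_sq (x := φ x) h.hG' h.cn' h.hB'
  rw [nF g h hx, h.kd hx] at b
  linarith

end gen

open M G75 Ins26 Jb7 Rf65
open Nat75 (pl tr pl_f)
open Twn5 (OP)

variable {κ lam : Type} [Fintype κ] [Fintype lam] [DecidableEq lam] {Lm : LM κ lam}
  {S S' : Scene Lm} {D : S.Dat} {D' : S'.Dat} {i : S.L} {i' : S'.L} {Wi Wi' : Type} {r n : ℕ}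
  {J : Job Wi (D.Λ i) (S.A ⊕ Unit) S.ls r n} {J' : Job Wi' (D'.Λ i') (S'.A ⊕ Unit) S'.ls r n}
  {A₀ : Type} {I : MId S.M S'.M A₀} {R₀ : A₀} {c : S.M.Cl} {c' : S'.M.Cl} {s : S.A ⊕ Unit → ℝ}
  {φ : (D.W.Z c).M → (D'.W.Z c').M} {ψ : (D'.W.Z c').M → (D.W.Z c).M}
  {U : (D.W.Z c).M → Option κ → Option κ → ℝ}
  {v : (D.W.Z c).M → CL (Eu (lam ⊕ lam)) (Eu (lam ⊕ lam))} {ρ : Reg S.A}

theorem OP.tru {R : S.A} (h : ρ ∈ OP R c) {b} (e : ρ R = some b) : b = true :=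
  let ⟨_, k⟩ := (S.M.sys.w R).ne b
  (S.M.sys.w R).sd_inj k.2 (h.2 (h.1.adj R b e k))

namespace GZ
variable (G : GZ J J' I R₀ c c' s φ ψ U v) (h : ρ ∈ OP (I.f R₀) c)
  (h' : S'.M.sys.Piece c'.1 (pl I.f' I.f ρ))
include G h h'

/-- the isometry of the pieces -/
theorem kp : KT (J.B c) (J.G c s) (J'.B c') (J'.G c' (tr I.f I.f' s)) (D.W.pc c ρ)
    (D'.W.pc c' (pl I.f' I.f ρ)) φ ψ U v :=
  have o := Cyl58.isClopen_pc D.W.toCaps h.1
  have o' := Cyl58.isClopen_pc D'.W.toCaps h'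
  kt_of (kg_sub G.kt.toKG (fun _ k => mem_un.2 ⟨ρ, h, k⟩) o.2 o'.2 (G.pc ρ h)) o.1 o'.1 G.kt.tame
    G.kt.tame'

theorem gid (hc : c'.1 = I.f' '' (I.f ⁻¹' c.1)) (cy : cylW c ⊆ range I.f) :
    ∃ e, GId J c s {ρ} J' c' (tr I.f I.f' s) {pl I.f' I.f ρ} φ ψ U v e := by
  let T := {t : A₀ × Bool // I.f t.1 ∈ cylW c ∧ ρ (I.f t.1) = some t.2}
  let e₁ : T ≃ EdP c {ρ} := .ofBijective (fun t => ⟨(⟨_, t.2.1⟩, t.1.2), ρ, rfl, t.2.2⟩)
    ⟨fun t t' k => Subtype.ext (Prod.ext (I.f.injective (congrArg (·.1.1.1) k)) (congrArg (·.1.2) k)),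
      fun ⟨(⟨a, ha⟩, b), _, k1, k2⟩ => by
        obtain ⟨a, rfl⟩ := cy ha
        exact ⟨⟨(a, b), ha, k1 ▸ k2⟩, rfl⟩⟩
  let e₂ : T ≃ EdP c' {pl I.f' I.f ρ} := .ofBijective (fun t => ⟨(⟨I.f' t.1.1,
      hc.ge ⟨_, t.2.1.1, rfl⟩, fun k => t.2.1.2 ((I.pin _).1 k)⟩, t.1.2), _, rfl, (pl_f _).trans t.2.2⟩)
    ⟨fun t t' k => Subtype.ext (Prod.ext (I.f'.injective (congrArg (·.1.1.1) k)) (congrArg (·.1.2) k)),
      fun ⟨(⟨a, ha⟩, b), _, k1, k2⟩ => by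
        obtain ⟨a, k, rfl⟩ := hc.le ha.1
        exact ⟨⟨(a, b), ⟨k, fun n => ha.2 ((I.pin _).2 n)⟩, (pl_f _).symm.trans (k1 ▸ k2)⟩, rfl⟩⟩
  refine ⟨e₁.symm.trans e₂, (un_one D.W.toCaps c ρ).symm ▸ (un_one D'.W.toCaps c' _).symm ▸ G.kp h h',
    fun j => ?_, fun j => ?_⟩ <;> obtain ⟨⟨⟨a, b⟩, k1, k2⟩, rfl⟩ := e₁.surjective j
  · rw [Equiv.trans_apply, Equiv.symm_apply_apply]; rfl
  generalize he : (e₁.symm.trans e₂) _ = j
  rw [Equiv.trans_apply, Equiv.symm_apply_apply] at he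
  subst he
  refine ⟨I.g a, G.cy a, fun y t t0 t1 => G.nk a k1 y t (by rintro rfl; simp at t0) ?_ ?_⟩
  · change 0 < M.pm b * t at t0
    change M.pm b * t < 1 at t1
    cases b <;> simp only [M.pm, Bool.false_eq_true, if_false, if_true] at t0 t1 <;>
      rw [abs_lt] <;> constructor <;> linarith
  · rintro rfl
    obtain rfl := OP.tru h k2
    simpa [M.pm] using (show 0 < M.pm true * t from t0)

variable {y : J.Obc c} {y' : J'.Obc c'} {u : (D.W.Z c).M → CL y.x.con.m.V y'.x.con.m.V}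

omit G h h' in
/-- **the pieces** -/
theorem pcs (G : GZ J J' I R₀ c c' y.s φ ψ U v) (h : ρ ∈ OP (I.f R₀) c)
    (h' : S'.M.sys.Piece c'.1 (pl I.f' I.f ρ)) (hc : c'.1 = I.f' '' (I.f ⁻¹' c.1))
    (cy : cylW c ⊆ range I.f) (hs : y'.s = tr I.f I.f' y.s) (a : Ad0 y.x.con (J.B c) (J.G c y.s))
    (a' : Ad0 y'.x.con (J'.B c') (J'.G c' y'.s))
    (k : CEq (J.G c y.s).F y.x.con y'.x.con (Oz D c (I.f R₀)) φ U v u 1) :
    CId y {ρ} y' {pl I.f' I.f ρ} ∧ (y.TA ρ → y'.TA (pl I.f' I.f ρ)) ∧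
    (∀ ε, EA ε y ρ → EA ε y' (pl I.f' I.f ρ)) ∧ (Un y ρ → Un y' (pl I.f' I.f ρ)) ∧
    (IntegrableOn y.kd (D.W.pc c ρ) (J.G c y.s).F.μ →
      IntegrableOn y'.kd (D'.W.pc c' (pl I.f' I.f ρ)) (J'.G c' y'.s).F.μ) ∧
    y'.kap (D'.W.pc c' (pl I.f' I.f ρ)) = y.kap (D.W.pc c ρ) := by
  have g := (G.kp h h').toKG
  obtain ⟨e, q⟩ := G.gid h h' hc cy
  rw [← hs] at g q
  replace k := Wrd81.ceq_mono k (K := D.W.pc c ρ) fun _ k => mem_un.2 ⟨ρ, h, k⟩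
  have l := g.toLG.of_ceq a a' k
  refine ⟨⟨_, _, _, _, e, u, q, (un_one D.W.toCaps c ρ).symm ▸ k⟩,
    .imp (Wrd81.lm_lin (c := y.x) (c' := y'.x) l g.inv) (Wrd81.lm_flat (c := y.x) (c' := y'.x) l g.inv),
    fun ε t => ⟨int_tr g (fun _ => nF g l) t.int, ?_⟩,
    fun ⟨ξ, h1, h2⟩ => ⟨_, Wrd81.lm_parS l g.inv h1, fun z hz => ?_⟩,
    int_tr g fun _ => l.kd, kap_on g l⟩
  · exact (g.integral_rel fun _ => nP g l).trans_le (t.le.trans_eq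
      (congrArg _ (g.integral_rel fun _ => nF g l).symm))
  · have m := g.inv.maps' hz
    rw [← h2 _ m, norm_eq_sqrt_real_inner, (l.me _ m).inner_cj _ (h1.mem _ m), ← norm_eq_sqrt_real_inner]

end GZ

end Crest.Agent.X212.Tw55
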